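import Vale.Agent.P272.K.AMP.LEX.Exp1
import Mathlib.MeasureTheory.Integral.Prod

/-! P272, AMP, Step 9 local lemma: the exponential estimate in dimension one. -/

open Complex MeasureTheory Set Filter Topology

noncomputable section

namespace Vale.Agent.P272.K.LEX

/-- the area of the unit disc -/
def vol1 : ℝ := volume.real (Metric.ball (0 : ℂ) 1)

lemma vol1_nonneg : 0 ≤ vol1 := measureReal_nonneg

lemma vol_ne_top : volume (Metric.ball (0 : ℂ) 1) ≠ ⊤ := measure_ball_lt_top.ne

lemma int_inv_sqrt {ε : ℝ} (hε : 0 < ε) {w : ℂ} (hw : ‖w‖ ≤ 3 / 2) :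
    ∫ z in Metric.ball (0 : ℂ) 1, 3 / √(sq z (ε ^ 2) w) ≤ 15 * vol1 := by
  set g : ℝ → ℝ := (Iio (5 / 2 : ℝ)).indicator (fun t => 3 / √(t ^ 2 + ε ^ 2)) with hg
  have hg0 : ∀ t, 0 ≤ g t := fun t => indicator_nonneg (fun _ _ => by positivity) t
  have ig : Integrable fun y : ℂ => g ‖y‖ := by
    have h1 : (fun y : ℂ => g ‖y‖) =
        (Metric.ball (0 : ℂ) (5 / 2)).indicator fun y => 3 / √(‖y‖ ^ 2 + ε ^ 2) := by
      funext y
      rcases lt_or_ge ‖y‖ (5 / 2) with h | h
      · rw [hg, indicator_of_mem (mem_Iio.2 h), indicator_of_mem (mem_ball_zero_iff.2 h)]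
      · rw [hg, indicator_of_notMem (by simpa using h), indicator_of_notMem (by simpa using h)]
    rw [h1, integrable_indicator_iff measurableSet_ball]
    refine (ContinuousOn.integrableOn_compact (isCompact_closedBall (0 : ℂ) (5 / 2)) ?_).mono_set
      Metric.ball_subset_closedBall
    refine Continuous.continuousOn ?_
    refine Continuous.div continuous_const (by fun_prop) fun y => ?_
    positivity
  have ig2 : Integrable fun z : ℂ => g ‖w - z‖ := ig.comp_sub_left w
  have h1 : ∫ z in Metric.ball (0 : ℂ) 1, 3 / √(sq z (ε ^ 2) w) =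
      ∫ z in Metric.ball (0 : ℂ) 1, g ‖w - z‖ := by
    refine setIntegral_congr_fun measurableSet_ball fun z hz => ?_
    show 3 / √(sq z (ε ^ 2) w) = g ‖w - z‖
    rw [mem_ball_zero_iff] at hz
    have h2 : ‖w - z‖ < 5 / 2 := lt_of_le_of_lt (norm_sub_le w z) (by linarith)
    rw [hg, indicator_of_mem (mem_Iio.2 h2)]
    rfl
  have h2 : ∫ z in Metric.ball (0 : ℂ) 1, g ‖w - z‖ ≤ ∫ z, g ‖w - z‖ :=
    setIntegral_le_integral ig2 (Eventually.of_forall fun z => hg0 _)
  have h3 : ∫ z : ℂ, g ‖w - z‖ = ∫ y : ℂ, g ‖y‖ :=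
    integral_sub_left_eq_self (fun y => g ‖y‖) volume w
  have h4 := integral_fun_norm_addHaar (E := ℂ) volume g
  rw [Complex.finrank_real_complex] at h4
  have h5 : ∫ y in Ioi (0 : ℝ), y ^ (2 - 1) • g y ≤ 15 / 2 := by
    have h6 : ∫ y in Ioi (0 : ℝ), y ^ (2 - 1) • g y ≤
        ∫ y in Ioi (0 : ℝ), (Ioo (0 : ℝ) (5 / 2)).indicator (fun _ => (3 : ℝ)) y := by
      refine integral_mono_of_nonneg ?_ ?_ ?_
      · filter_upwards [ae_restrict_mem measurableSet_Ioi] with y hy
        have hy0 : (0 : ℝ) < y := hy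
        show 0 ≤ y ^ (2 - 1) • g y
        rw [smul_eq_mul]
        exact mul_nonneg (by positivity) (hg0 y)
      · refine Integrable.integrableOn ?_
        rw [integrable_indicator_iff measurableSet_Ioo]
        exact integrableOn_const (by simp)
      · filter_upwards [ae_restrict_mem measurableSet_Ioi] with y hy
        have hy0 : (0 : ℝ) < y := hy
        show y ^ (2 - 1) • g y ≤ _
        rcases lt_or_ge y (5 / 2) with h | h
        · rw [hg, indicator_of_mem (mem_Iio.2 h), indicator_of_mem (mem_Ioo.2 ⟨hy0, h⟩),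
            smul_eq_mul, show (2 - 1 : ℕ) = 1 from rfl, pow_one]
          have h7 : y ≤ √(y ^ 2 + ε ^ 2) := by
            refine Real.le_sqrt_of_sq_le ?_
            nlinarith [sq_nonneg ε]
          have h8 : 0 < √(y ^ 2 + ε ^ 2) := lt_of_lt_of_le hy0 h7
          rw [mul_div_assoc', div_le_iff₀ h8]
          linarith
        · rw [hg, indicator_of_notMem (by simpa using h), smul_zero]
          exact indicator_nonneg (fun _ _ => by norm_num) y
    refine h6.trans ?_
    rw [setIntegral_indicator measurableSet_Ioo, inter_eq_self_of_subset_right Ioo_subset_Ioi_self,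
      setIntegral_const, smul_eq_mul]
    simp
    norm_num
  rw [h1]
  refine h2.trans ?_
  rw [h3, h4, nsmul_eq_mul, smul_eq_mul]
  have h9 := mul_le_mul_of_nonneg_left h5 vol1_nonneg
  push_cast
  unfold vol1 at h9 ⊢
  linarith

lemma continuous_sq2 {ε : ℝ} : Continuous fun p : ℂ × ℂ => sq p.1 (ε ^ 2) p.2 := by
  unfold sq
  fun_prop

lemma continuous_expPhi {ε : ℝ} (hε : 0 < ε) :
    Continuous fun p : ℂ × ℂ => Real.exp (Phi ε p.1 p.2) := by
  have h : (fun p : ℂ × ℂ => Real.exp (Phi ε p.1 p.2)) =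
      fun p : ℂ × ℂ => 3 / √(sq p.1 (ε ^ 2) p.2) := by
    funext p; exact exp_Phi hε _ _
  rw [h]
  refine Continuous.div continuous_const (continuous_sq2.sqrt) fun p => ?_
  exact (Real.sqrt_pos.2 (sq_pos hε _ _)).ne'

lemma expPhi_le {ε : ℝ} (hε : 0 < ε) (z w : ℂ) : Real.exp (Phi ε z w) ≤ 3 / ε := by
  rw [exp_Phi hε]
  refine div_le_div_of_nonneg_left (by norm_num) hε ?_
  refine Real.le_sqrt_of_sq_le ?_
  unfold sq
  nlinarith [norm_nonneg (w - z)]

lemma integrable_prod_exp {q : ℂ → ℝ} (iq : Integrable q) {ε : ℝ} (hε : 0 < ε) :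
    Integrable (Function.uncurry fun z w => Real.exp (Phi ε z w) * q w)
      ((volume.restrict (Metric.ball (0 : ℂ) 1)).prod volume) := by
  have h1 : Integrable (fun p : ℂ × ℂ => (1 : ℝ) * q p.2)
      ((volume.restrict (Metric.ball (0 : ℂ) 1)).prod volume) := by
    refine Integrable.mul_prod (f := fun _ => (1 : ℝ)) ?_ iq
    exact integrableOn_const vol_ne_top
  have h2 : Integrable (fun p : ℂ × ℂ => q p.2)
      ((volume.restrict (Metric.ball (0 : ℂ) 1)).prod volume) := by
    simpa using h1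
  refine Integrable.bdd_mul (c := 3 / ε) (f := fun p : ℂ × ℂ => Real.exp (Phi ε p.1 p.2))
    (g := fun p : ℂ × ℂ => q p.2) h2 (continuous_expPhi hε).aestronglyMeasurable
    (Eventually.of_forall fun p => ?_)
  rw [Real.norm_eq_abs, abs_of_pos (Real.exp_pos _)]
  exact expPhi_le hε _ _

lemma fubini_le {q : ℂ → ℝ} (iq : Integrable q) (hq : ∀ w, 0 ≤ q w)
    (hq0 : ∀ w, 3 / 2 < ‖w‖ → q w = 0) {ε : ℝ} (hε : 0 < ε) :
    ∫ z in Metric.ball (0 : ℂ) 1, ∫ w, Real.exp (Phi ε z w) * q w ≤ 15 * vol1 * ∫ w, q w := by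
  rw [integral_integral_swap (integrable_prod_exp iq hε), ← integral_const_mul]
  refine integral_mono_of_nonneg (Eventually.of_forall fun w => ?_) (iq.const_mul _)
    (Eventually.of_forall fun w => ?_)
  · exact integral_nonneg fun z => mul_nonneg (Real.exp_pos _).le (hq w)
  · show ∫ z in Metric.ball (0 : ℂ) 1, Real.exp (Phi ε z w) * q w ≤ 15 * vol1 * q w
    rw [integral_mul_const]
    rcases le_or_gt ‖w‖ (3 / 2) with h | h
    · refine mul_le_mul_of_nonneg_right ?_ (hq w)
      have := int_inv_sqrt hε h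
      simpa only [exp_Phi hε] using this
    · rw [hq0 w h]; simp

/-- **the exponential estimate in dimension one** -/
theorem exp1D (M : ℝ) : ∃ α > 0, ∃ K : ℝ, ∀ U : ℂ → ℝ, ContDiff ℝ 2 U →
    (∀ w ∈ Metric.ball (0 : ℂ) (17 / 10), 0 ≤ lap U w) →
    (∀ w ∈ Metric.ball (0 : ℂ) (17 / 10), U w ≤ 0) → -M ≤ U 0 →
    ∫ z in Metric.ball (0 : ℂ) 1, Real.exp (-(α * U z)) ≤ K := by
  rcases lt_or_ge M 0 with hM | hM
  · refine ⟨1, one_pos, 0, fun U _ _ hn h0 => ?_⟩
    exfalso
    have := hn 0 (by simp)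
    linarith
  obtain ⟨D, hD0, hD⟩ := exists_cut_bound
  have hk := kap_pos
  set L0 : ℝ := 25 * kap * M with hL0
  have hL0' : 0 ≤ L0 := by positivity
  set m : ℝ := D * L0 + 1 with hm
  have hm0 : 0 < m := by positivity
  refine ⟨2 * kap / m, by positivity, Real.exp 100 * (16 * vol1), fun U hU hl hn h0 => ?_⟩
  have hUc := hU.continuous
  have hL : ∫ w in Metric.closedBall (0 : ℂ) (3 / 2), -U w ≤ L0 := by
    refine (sub_mean1 hU hl hn).trans ?_
    rw [hL0]
    exact mul_le_mul_of_nonneg_left (by linarith) (by positivity)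
  -- the density
  set q : ℂ → ℝ := fun w => cut w * lap U w with hq
  have hqc : Continuous q := contDiff_cut.continuous.mul (continuous_lap hU)
  have hqz : ∀ w, 3 / 2 ≤ ‖w‖ → q w = 0 := fun w hw => by
    show cut w * lap U w = 0
    rw [cut_zero hw, zero_mul]
  have hq0 : ∀ w, 0 ≤ q w := by
    intro w
    rcases lt_or_ge ‖w‖ (3 / 2) with h | h
    · exact mul_nonneg cut.nonneg (hl w (by rw [mem_ball_zero_iff]; linarith))
    · rw [hqz w h]
  have iq : Integrable q := integrable_of_zero hqc hqz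
  have hqm : ∫ w, q w ≤ m := by
    refine (mass_le hD hU hn).trans ?_
    have := mul_le_mul_of_nonneg_left hL hD0
    linarith
  -- the function
  set F : ℂ → ℝ := fun w => -U w * cut w with hF
  have hFc : Continuous F := hUc.neg.mul contDiff_cut.continuous
  obtain ⟨B, hB0, hB⟩ := exists_bound hFc fun w hw => by
    show -U w * cut w = 0
    rw [cut_zero hw.le, mul_zero]
  -- the estimate at level ε
  have key : ∀ ε : ℝ, 0 < ε → ε ≤ 1 →
      ∫ z in Metric.ball (0 : ℂ) 1, Real.exp (2 * (∫ w, F w * rho ε z w) / m) ≤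
        Real.exp 100 * (16 * vol1) := by
    intro ε hε hε1
    have hPc : ∀ z, Continuous fun w => Phi ε z w := fun z => (contDiff_Phi hε z).continuous
    have ipt : ∀ z : ℂ, ‖z‖ < 1 → Real.exp (2 * (∫ w, F w * rho ε z w) / m) ≤
        Real.exp 100 * (1 + (∫ w, Real.exp (Phi ε z w) * q w) / m) := by
      intro z hz
      have h1 := pot_le hD0 hD hU hn hε hε1 hz
      have h2 : 100 * D * ∫ w in Metric.closedBall (0 : ℂ) (3 / 2), -U w ≤ 100 * m := by
        have := mul_le_mul_of_nonneg_left hL hD0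
        linarith
      have h3 : 2 * (∫ w, F w * rho ε z w) / m ≤ 100 + (∫ w, Phi ε z w * q w) / m := by
        rw [div_le_iff₀ hm0, add_mul, div_mul_cancel₀ _ hm0.ne']
        linarith
      refine (Real.exp_le_exp.2 h3).trans ?_
      rw [Real.exp_add]
      refine mul_le_mul_of_nonneg_left ?_ (Real.exp_pos _).le
      refine jensen hq0 iq ?_ ?_ hm0 hqm
      · exact integrable_of_zero ((hPc z).mul hqc) (r := 3 / 2) fun w hw => by
          rw [hqz w hw, mul_zero]
      · exact integrable_of_zero ((hPc z).rexp.mul hqc) (r := 3 / 2) fun w hw => by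
          rw [hqz w hw, mul_zero]
    have ii : Integrable (fun z => ∫ w, Real.exp (Phi ε z w) * q w)
        (volume.restrict (Metric.ball (0 : ℂ) 1)) := (integrable_prod_exp iq hε).integral_prod_left
    have i1 : Integrable (fun _ : ℂ => (1 : ℝ)) (volume.restrict (Metric.ball (0 : ℂ) 1)) :=
      integrableOn_const vol_ne_top
    have h4 : ∫ z in Metric.ball (0 : ℂ) 1, Real.exp (2 * (∫ w, F w * rho ε z w) / m) ≤
        ∫ z in Metric.ball (0 : ℂ) 1,
          Real.exp 100 * (1 + (∫ w, Real.exp (Phi ε z w) * q w) / m) := by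
      refine integral_mono_of_nonneg (Eventually.of_forall fun z => (Real.exp_pos _).le)
        ((i1.add (ii.div_const m)).const_mul _) ?_
      filter_upwards [ae_restrict_mem measurableSet_ball] with z hz
      exact ipt z (mem_ball_zero_iff.1 hz)
    refine h4.trans ?_
    rw [integral_const_mul, integral_add i1 (ii.div_const m), integral_div]
    refine mul_le_mul_of_nonneg_left ?_ (Real.exp_pos _).le
    have h5 := fubini_le iq hq0 (fun w hw => hqz w hw.le) hε
    have h6 : (∫ z in Metric.ball (0 : ℂ) 1, ∫ w, Real.exp (Phi ε z w) * q w) / m ≤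
        15 * vol1 := by
      rw [div_le_iff₀ hm0]
      refine h5.trans ?_
      exact mul_le_mul_of_nonneg_left hqm (mul_nonneg (by norm_num) vol1_nonneg)
    have h7 : ∫ _z in Metric.ball (0 : ℂ) 1, (1 : ℝ) = vol1 := by
      rw [setIntegral_const, smul_eq_mul, mul_one]; rfl
    rw [h7]
    linarith
  -- the limit
  have hbd : ∀ ε : ℝ, 0 < ε → ∀ z, |∫ w, F w * rho ε z w| ≤ B * kap := by
    intro ε hε z
    rw [integral_rho hε z, ← Real.norm_eq_abs]
    have h1 : B * kap = ∫ s : ℂ, B * ((‖s‖ ^ 2 + 1) ^ 2)⁻¹ := by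
      rw [integral_const_mul]; rfl
    rw [h1]
    refine norm_integral_le_of_norm_le (integrable_kap.const_mul B)
      (Eventually.of_forall fun s => ?_)
    rw [Real.norm_eq_abs, abs_mul]
    have h1 : |((‖s‖ ^ 2 + 1) ^ 2)⁻¹| = ((‖s‖ ^ 2 + 1) ^ 2)⁻¹ := abs_of_pos (by positivity)
    rw [h1]
    exact mul_le_mul_of_nonneg_right (hB _) (by positivity)
  have hlim : Tendsto (fun ε : ℝ => ∫ z in Metric.ball (0 : ℂ) 1,
      Real.exp (2 * (∫ w, F w * rho ε z w) / m)) (𝓝[>] 0)
      (𝓝 (∫ z in Metric.ball (0 : ℂ) 1, Real.exp (2 * (F z * kap) / m))) := by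
    refine tendsto_integral_filter_of_dominated_convergence
      (fun _ => Real.exp (2 * (B * kap) / m)) ?_ ?_ (integrableOn_const vol_ne_top) ?_
    · filter_upwards [self_mem_nhdsWithin] with ε hε
      have hε0 : (0 : ℝ) < ε := hε
      have hc : Continuous (Function.uncurry fun z w => F w * rho ε z w) :=
        (hFc.comp continuous_snd).mul (continuous_rho hε0)
      have hs := hc.stronglyMeasurable.integral_prod_right (ν := (volume : Measure ℂ))
      have hs2 := hs.measurable
      have : Measurable fun z => Real.exp (2 * (∫ w, F w * rho ε z w) / m) :=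
        ((hs2.const_mul 2).div_const m).exp
      exact this.aestronglyMeasurable
    · filter_upwards [self_mem_nhdsWithin] with ε hε
      refine Eventually.of_forall fun z => ?_
      rw [Real.norm_eq_abs, abs_of_pos (Real.exp_pos _)]
      refine Real.exp_le_exp.2 (div_le_div_of_nonneg_right ?_ hm0.le)
      have := (abs_le.1 (hbd ε hε z)).2
      linarith
    · refine Eventually.of_forall fun z => ?_
      have h1 := tendsto_rho hFc hB z
      have h2 : Tendsto (fun ε : ℝ => 2 * (∫ w, F w * rho ε z w) / m) (𝓝[>] 0)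
          (𝓝 (2 * (F z * kap) / m)) := (h1.const_mul 2).div_const m
      exact (Real.continuous_exp.tendsto _).comp h2
  have hfin : ∫ z in Metric.ball (0 : ℂ) 1, Real.exp (2 * (F z * kap) / m) ≤
      Real.exp 100 * (16 * vol1) := by
    refine le_of_tendsto hlim ?_
    filter_upwards [Ioc_mem_nhdsGT (show (0 : ℝ) < 1 by norm_num)] with ε hε
    exact key ε hε.1 hε.2
  refine le_trans (le_of_eq ?_) hfin
  refine setIntegral_congr_fun measurableSet_ball fun z hz => ?_
  show Real.exp (-(2 * kap / m * U z)) = Real.exp (2 * (-U z * cut z * kap) / m)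
  rw [mem_ball_zero_iff] at hz
  rw [cut_one (by linarith)]
  congr 1
  ring

end Vale.Agent.P272.K.LEX
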