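import Mathlib.Analysis.Calculus.LineDeriv.IntegrationByParts
import Mathlib.Analysis.Calculus.BumpFunction.FiniteDimension
import Mathlib.Analysis.Calculus.BumpFunction.InnerProduct
import Mathlib.MeasureTheory.Measure.Lebesgue.Complex
import Mathlib.MeasureTheory.Constructions.HaarToSphere
import Mathlib.Analysis.SpecialFunctions.Log.Deriv
import Mathlib.Analysis.SpecialFunctions.JapaneseBracket
import Mathlib.MeasureTheory.Integral.IntervalIntegral.FundThmCalculus
import Mathlib.Analysis.Calculus.ContDiff.Operations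

/-! P272, AMP, Step 9 local lemma: the Laplacian on `ℂ`. -/

open Complex MeasureTheory Set Filter Topology

noncomputable section

namespace Vale.Agent.P272.K.LEX

/-- the Laplacian of a real function on `ℂ` -/
def lap (f : ℂ → ℝ) (z : ℂ) : ℝ :=
  fderiv ℝ (fun y => fderiv ℝ f y 1) z 1 + fderiv ℝ (fun y => fderiv ℝ f y I) z I

lemma contDiff_fderiv_apply {f : ℂ → ℝ} (hf : ContDiff ℝ 2 f) (v : ℂ) :
    ContDiff ℝ 1 (fun y => fderiv ℝ f y v) :=
  (hf.fderiv_right (m := 1) (by norm_num)).clm_apply contDiff_const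

lemma continuous_lap {f : ℂ → ℝ} (hf : ContDiff ℝ 2 f) : Continuous (lap f) := by
  have h : ∀ v : ℂ, Continuous (fun z => fderiv ℝ (fun y => fderiv ℝ f y v) z v) := fun v =>
    ((contDiff_fderiv_apply hf v).continuous_fderiv (by norm_num)).clm_apply continuous_const
  exact (h 1).add (h I)

lemma lap_congr {f g : ℂ → ℝ} {z : ℂ} (h : f =ᶠ[𝓝 z] g) : lap f z = lap g z := by
  have h1 : ∀ v : ℂ, (fun y => fderiv ℝ f y v) =ᶠ[𝓝 z] fun y => fderiv ℝ g y v := by
    intro v
    filter_upwards [h.eventuallyEq_nhds] with y hy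
    rw [hy.fderiv_eq]
  unfold lap
  rw [(h1 1).fderiv_eq, (h1 I).fderiv_eq]

lemma lap_const (c : ℝ) (z : ℂ) : lap (fun _ => c) z = 0 := by
  unfold lap
  simp

lemma lap_zero_of_notMem {f : ℂ → ℝ} {z : ℂ} (h : z ∉ tsupport f) : lap f z = 0 := by
  have : f =ᶠ[𝓝 z] fun _ => (0 : ℝ) := notMem_tsupport_iff_eventuallyEq.1 h
  rw [lap_congr this, lap_const]

lemma fderiv_zero_of_notMem {f : ℂ → ℝ} {z : ℂ} (h : z ∉ tsupport f) : fderiv ℝ f z = 0 := by
  have : f =ᶠ[𝓝 z] fun _ => (0 : ℝ) := notMem_tsupport_iff_eventuallyEq.1 h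
  rw [this.fderiv_eq]; simp

/-- integration by parts for a second derivative -/
lemma ibp_dir {H U : ℂ → ℝ} (hc : HasCompactSupport H) (hH : ContDiff ℝ 2 H) (hU : ContDiff ℝ 2 U)
    (v : ℂ) : ∫ z, H z * fderiv ℝ (fun y => fderiv ℝ U y v) z v =
      ∫ z, U z * fderiv ℝ (fun y => fderiv ℝ H y v) z v := by
  have hU1 := contDiff_fderiv_apply hU v
  have hH1 := contDiff_fderiv_apply hH v
  have cU1 : Continuous fun y => fderiv ℝ U y v := hU1.continuous
  have cH1 : Continuous fun y => fderiv ℝ H y v := hH1.continuous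
  have cU2 : Continuous fun z => fderiv ℝ (fun y => fderiv ℝ U y v) z v :=
    (hU1.continuous_fderiv (by norm_num)).clm_apply continuous_const
  have cH2 : Continuous fun z => fderiv ℝ (fun y => fderiv ℝ H y v) z v :=
    (hH1.continuous_fderiv (by norm_num)).clm_apply continuous_const
  have s1 : HasCompactSupport fun y => fderiv ℝ H y v := by
    refine hc.mono' ?_
    intro y hy
    by_contra h
    apply hy
    simp [fderiv_zero_of_notMem h]
  have s2 : HasCompactSupport fun z => fderiv ℝ (fun y => fderiv ℝ H y v) z v := by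
    refine s1.mono' ?_
    intro y hy
    by_contra h
    apply hy
    simp [fderiv_zero_of_notMem h]
  have e1 := integral_mul_fderiv_eq_neg_fderiv_mul_of_integrable (μ := (volume : Measure ℂ))
    (f := H) (g := fun y => fderiv ℝ U y v) (v := v)
    ((cH1.mul cU1).integrable_of_hasCompactSupport s1.mul_right)
    ((hH.continuous.mul cU2).integrable_of_hasCompactSupport hc.mul_right)
    ((hH.continuous.mul cU1).integrable_of_hasCompactSupport hc.mul_right)
    (fun x _ => (hH.differentiable (by norm_num)) x)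
    (fun x _ => (hU1.differentiable (by norm_num)) x)
  have e2 := integral_mul_fderiv_eq_neg_fderiv_mul_of_integrable (μ := (volume : Measure ℂ))
    (f := U) (g := fun y => fderiv ℝ H y v) (v := v)
    ((cU1.mul cH1).integrable_of_hasCompactSupport s1.mul_left)
    ((hU.continuous.mul cH2).integrable_of_hasCompactSupport s2.mul_left)
    ((hU.continuous.mul cH1).integrable_of_hasCompactSupport s1.mul_left)
    (fun x _ => (hU.differentiable (by norm_num)) x)
    (fun x _ => (hH1.differentiable (by norm_num)) x)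
  rw [e1, e2]
  congr 1
  refine integral_congr_ae (Eventually.of_forall fun x => ?_)
  exact mul_comm _ _

lemma lap_tsupport {H : ℂ → ℝ} (hc : HasCompactSupport H) : HasCompactSupport (lap H) := by
  refine hc.mono' ?_
  intro y hy
  by_contra h
  exact hy (lap_zero_of_notMem h)

/-- Green's second identity -/
theorem ibp {H U : ℂ → ℝ} (hc : HasCompactSupport H) (hH : ContDiff ℝ 2 H)
    (hU : ContDiff ℝ 2 U) : ∫ z, H z * lap U z = ∫ z, U z * lap H z := by
  have c2 : ∀ {f : ℂ → ℝ}, ContDiff ℝ 2 f → ∀ v : ℂ,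
      Continuous (fun z => fderiv ℝ (fun y => fderiv ℝ f y v) z v) := fun hf v =>
    ((contDiff_fderiv_apply hf v).continuous_fderiv (by norm_num)).clm_apply continuous_const
  have s2 : ∀ v : ℂ, HasCompactSupport fun z => fderiv ℝ (fun y => fderiv ℝ H y v) z v := by
    intro v
    have s1 : HasCompactSupport fun y => fderiv ℝ H y v := by
      refine hc.mono' ?_
      intro y hy
      by_contra h
      apply hy
      simp [fderiv_zero_of_notMem h]
    refine s1.mono' ?_
    intro y hy
    by_contra h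
    apply hy
    simp [fderiv_zero_of_notMem h]
  have i1 : ∀ v : ℂ, Integrable fun z => H z * fderiv ℝ (fun y => fderiv ℝ U y v) z v := fun v =>
    (hH.continuous.mul (c2 hU v)).integrable_of_hasCompactSupport hc.mul_right
  have i2 : ∀ v : ℂ, Integrable fun z => U z * fderiv ℝ (fun y => fderiv ℝ H y v) z v := fun v =>
    (hU.continuous.mul (c2 hH v)).integrable_of_hasCompactSupport (s2 v).mul_left
  unfold lap
  simp only [mul_add]
  rw [integral_add (i1 1) (i1 I), integral_add (i2 1) (i2 I), ibp_dir hc hH hU, ibp_dir hc hH hU]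

/-- the Laplacian of a product -/
lemma lap_mul {f g : ℂ → ℝ} (hf : ContDiff ℝ 2 f) (hg : ContDiff ℝ 2 g) (z : ℂ) :
    lap (fun y => f y * g y) z = f z * lap g z +
      2 * (fderiv ℝ f z 1 * fderiv ℝ g z 1 + fderiv ℝ f z I * fderiv ℝ g z I) + g z * lap f z := by
  have key : ∀ v : ℂ, fderiv ℝ (fun y => fderiv ℝ (fun y => f y * g y) y v) z v =
      f z * fderiv ℝ (fun y => fderiv ℝ g y v) z v + 2 * (fderiv ℝ f z v * fderiv ℝ g z v) +
        g z * fderiv ℝ (fun y => fderiv ℝ f y v) z v := by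
    intro v
    have df : ∀ y, DifferentiableAt ℝ f y := hf.differentiable (by norm_num)
    have dg : ∀ y, DifferentiableAt ℝ g y := hg.differentiable (by norm_num)
    have df1 : ∀ y, DifferentiableAt ℝ (fun y => fderiv ℝ f y v) y :=
      (contDiff_fderiv_apply hf v).differentiable (by norm_num)
    have dg1 : ∀ y, DifferentiableAt ℝ (fun y => fderiv ℝ g y v) y :=
      (contDiff_fderiv_apply hg v).differentiable (by norm_num)
    have h1 : (fun y => fderiv ℝ (fun y => f y * g y) y v) =
        fun y => f y * fderiv ℝ g y v + g y * fderiv ℝ f y v := by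
      funext y
      rw [fderiv_fun_mul (df y) (dg y)]
      simp
    have h2 := ((df z).hasFDerivAt.mul (dg1 z).hasFDerivAt).add
      ((dg z).hasFDerivAt.mul (df1 z).hasFDerivAt)
    rw [h1]
    have h3 : fderiv ℝ (fun y => f y * fderiv ℝ g y v + g y * fderiv ℝ f y v) z = _ := h2.fderiv
    rw [h3]
    simp
    ring
  unfold lap
  rw [key, key]
  ring

/-- squared distance plus a constant -/
def sq (z : ℂ) (c : ℝ) (w : ℂ) : ℝ := ‖w - z‖ ^ 2 + c

lemma sq_eq (z : ℂ) (c : ℝ) (w : ℂ) : sq z c w = (w - z).re ^ 2 + (w - z).im ^ 2 + c := by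
  unfold sq
  rw [← Complex.normSq_eq_norm_sq, Complex.normSq_apply]; ring

lemma hasFDerivAt_re_sub (z w : ℂ) : HasFDerivAt (fun w : ℂ => (w - z).re) reCLM w := by
  have h : HasFDerivAt (fun y : ℂ => reCLM y - z.re) reCLM w := reCLM.hasFDerivAt.sub_const _
  exact h

lemma hasFDerivAt_im_sub (z w : ℂ) : HasFDerivAt (fun w : ℂ => (w - z).im) imCLM w := by
  have h : HasFDerivAt (fun y : ℂ => imCLM y - z.im) imCLM w := imCLM.hasFDerivAt.sub_const _
  exact h

lemma contDiff_sq {k : WithTop ℕ∞} (z : ℂ) (c : ℝ) : ContDiff ℝ k (sq z c) := by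
  have h : sq z c = fun w => (reCLM (w - z)) ^ 2 + (imCLM (w - z)) ^ 2 + c := by
    funext w; rw [sq_eq]; rfl
  rw [h]
  exact (((reCLM.contDiff.comp (contDiff_id.sub contDiff_const)).pow 2).add
    ((imCLM.contDiff.comp (contDiff_id.sub contDiff_const)).pow 2)).add contDiff_const

lemma hasFDerivAt_sq (z : ℂ) (c : ℝ) (w : ℂ) :
    HasFDerivAt (sq z c) ((2 * (w - z).re) • reCLM + (2 * (w - z).im) • imCLM) w := by
  have h : sq z c = fun w => ((w - z).re) ^ 2 + ((w - z).im) ^ 2 + c := by
    funext w; rw [sq_eq]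
  rw [h]
  have h3 := (((hasFDerivAt_re_sub z w).pow 2).add ((hasFDerivAt_im_sub z w).pow 2)).add_const c
  refine h3.congr_fderiv ?_
  ext v <;> simp

lemma fderiv_radial {g : ℝ → ℝ} {g1 : ℝ} {z w : ℂ} {c : ℝ} (h : HasDerivAt g g1 (sq z c w))
    (v : ℂ) : fderiv ℝ (fun y => g (sq z c y)) w v =
      g1 * (2 * ((w - z).re * v.re + (w - z).im * v.im)) := by
  have h1 := h.comp_hasFDerivAt w (hasFDerivAt_sq z c w)
  have h2 : HasFDerivAt (fun y => g (sq z c y)) (g1 • ((2 * (w - z).re) • reCLM +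
    (2 * (w - z).im) • imCLM)) w := h1
  rw [h2.fderiv]
  simp
  ring

/-- the Laplacian of a radial function -/
lemma lap_radial {g g1 : ℝ → ℝ} {g2 : ℝ} {z w : ℂ} {c : ℝ}
    (h1 : ∀ᶠ s in 𝓝 (sq z c w), HasDerivAt g (g1 s) s) (h2 : HasDerivAt g1 g2 (sq z c w)) :
    lap (fun y => g (sq z c y)) w = 4 * (g1 (sq z c w) + ‖w - z‖ ^ 2 * g2) := by
  have hcs : ContinuousAt (sq z c) w := (contDiff_sq (k := 1) z c).continuous.continuousAt
  have h3 : ∀ᶠ y in 𝓝 w, HasDerivAt g (g1 (sq z c y)) (sq z c y) := hcs.eventually h1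
  have key : ∀ v : ℂ, fderiv ℝ (fun y => fderiv ℝ (fun y => g (sq z c y)) y v) w v =
      g2 * (2 * ((w - z).re * v.re + (w - z).im * v.im)) ^ 2 +
        g1 (sq z c w) * (2 * (v.re ^ 2 + v.im ^ 2)) := by
    intro v
    have h4 : (fun y => fderiv ℝ (fun y => g (sq z c y)) y v) =ᶠ[𝓝 w]
        fun y => g1 (sq z c y) * (2 * ((y - z).re * v.re + (y - z).im * v.im)) := by
      filter_upwards [h3] with y hy using fderiv_radial hy v
    rw [h4.fderiv_eq]
    have h5 : HasFDerivAt (fun y => g1 (sq z c y)) (g2 • ((2 * (w - z).re) • reCLM +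
        (2 * (w - z).im) • imCLM)) w := h2.comp_hasFDerivAt w (hasFDerivAt_sq z c w)
    have h6 : HasFDerivAt (fun y : ℂ => 2 * ((y - z).re * v.re + (y - z).im * v.im))
        ((2 * v.re) • reCLM + (2 * v.im) • imCLM) w := by
      have e3 := (((hasFDerivAt_re_sub z w).mul_const v.re).add
        ((hasFDerivAt_im_sub z w).mul_const v.im)).const_mul 2
      refine (e3.congr_fderiv ?_)
      ext u <;> simp <;> ring
    have h7 := h5.mul h6
    have h8 : fderiv ℝ (fun y => g1 (sq z c y) * (2 * ((y - z).re * v.re + (y - z).im * v.im))) w =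
      _ := h7.fderiv
    rw [h8]
    simp
    ring
  unfold lap
  rw [key, key]
  have : ‖w - z‖ ^ 2 = (w - z).re ^ 2 + (w - z).im ^ 2 := by
    rw [← Complex.normSq_eq_norm_sq, Complex.normSq_apply]; ring
  rw [this]
  simp
  ring

end Vale.Agent.P272.K.LEX
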