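import Mathlib.Analysis.Matrix.PosDef
import Mathlib.MeasureTheory.Measure.Lebesgue.EqHaar
import Mathlib.RingTheory.Norm.Transitivity
import Mathlib.RingTheory.Complex
import Vale.Agent.P272.K.INT.Wirt
import Vale.Agent.P272.K.AMP.LEX.Lap

/-! P272, AMP, Step 9 local lemma: restriction to complex lines and complex scaling. -/

open scoped ContDiff ComplexOrder ComplexConjugate Topology
open MeasureTheory Set Filter

noncomputable section

namespace Vale.Agent.P272.K.LEX

variable {n : ℕ}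

open INT in
/-- second derivatives along a complex line -/
lemma line_hess {F : Cm n → ℂ} (hF : ContDiff ℝ 2 F) (x v : Cm n) :
    fderiv ℝ (fun y => fderiv ℝ F y v) x v +
      fderiv ℝ (fun y => fderiv ℝ F y (Complex.I • v)) x (Complex.I • v) =
    4 * ∑ j, ∑ k, dz j (dzb k F) x * (v j * conj (v k)) := by
  have hd : ∀ i, DifferentiableAt ℝ (dz i F) x := fun i =>
    (contDiffAt_dz (m := 1) hF.contDiffAt (by norm_num)).differentiableAt (by norm_num)
  have hdb : ∀ i, DifferentiableAt ℝ (dzb i F) x := fun i =>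
    (contDiffAt_dzb (m := 1) hF.contDiffAt (by norm_num)).differentiableAt (by norm_num)
  have key : ∀ w : Cm n, fderiv ℝ (fun y => fderiv ℝ F y w) x w =
      ∑ j, ∑ k, (w j * w k * dz j (dz k F) x + conj (w j) * w k * dzb j (dz k F) x +
        (w j * conj (w k) * dz j (dzb k F) x + conj (w j) * conj (w k) * dzb j (dzb k F) x)) := by
    intro w
    have h1 : (fun y => fderiv ℝ F y w) = fun y =>
        ∑ i, (w i * dz i F y + conj (w i) * dzb i F y) := by
      funext y; exact fderiv_apply w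
    rw [h1, fderiv_apply w]
    refine Finset.sum_congr rfl fun j _ => ?_
    rw [dz_sum, dzb_sum]
    · rw [Finset.mul_sum, Finset.mul_sum, ← Finset.sum_add_distrib]
      refine Finset.sum_congr rfl fun k _ => ?_
      rw [dz_add ((hd k).const_mul _) ((hdb k).const_mul _),
        dzb_add ((hd k).const_mul _) ((hdb k).const_mul _), dz_const_mul _ (hd k),
        dz_const_mul _ (hdb k), dzb_const_mul _ (hd k), dzb_const_mul _ (hdb k)]
      ring
    · exact fun k _ => ((hd k).const_mul _).add ((hdb k).const_mul _)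
    · exact fun k _ => ((hd k).const_mul _).add ((hdb k).const_mul _)
  rw [key, key]
  have hsw : ∑ j, ∑ k, conj (v j) * v k * dzb j (dz k F) x =
      ∑ j, ∑ k, v j * conj (v k) * dz j (dzb k F) x := by
    rw [Finset.sum_comm]
    refine Finset.sum_congr rfl fun j _ => Finset.sum_congr rfl fun k _ => ?_
    rw [dz_dzb_comm hF.contDiffAt]
    ring
  have h2 : 4 * ∑ j, ∑ k, dz j (dzb k F) x * (v j * conj (v k)) =
      2 * (∑ j, ∑ k, v j * conj (v k) * dz j (dzb k F) x) +
      2 * (∑ j, ∑ k, conj (v j) * v k * dzb j (dz k F) x) := by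
    rw [hsw]
    have : ∑ j, ∑ k, dz j (dzb k F) x * (v j * conj (v k)) =
        ∑ j, ∑ k, v j * conj (v k) * dz j (dzb k F) x :=
      Finset.sum_congr rfl fun j _ => Finset.sum_congr rfl fun k _ => by ring
    rw [this]
    ring
  rw [h2, Finset.mul_sum, Finset.mul_sum, ← Finset.sum_add_distrib, ← Finset.sum_add_distrib]
  refine Finset.sum_congr rfl fun j _ => ?_
  rw [Finset.mul_sum, Finset.mul_sum, ← Finset.sum_add_distrib, ← Finset.sum_add_distrib]
  refine Finset.sum_congr rfl fun k _ => ?_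
  simp only [Pi.smul_apply, smul_eq_mul, map_mul, Complex.conj_I]
  linear_combination (v j * v k * dz j (dz k F) x + conj (v j) * conj (v k) * dzb j (dzb k F) x -
    conj (v j) * v k * dzb j (dz k F) x - v j * conj (v k) * dz j (dzb k F) x) * Complex.I_mul_I

lemma fderiv_ofReal_comp {V : Cm n → ℝ} {y : Cm n} (hV : DifferentiableAt ℝ V y) (v : Cm n) :
    fderiv ℝ (fun y => (V y : ℂ)) y v = (fderiv ℝ V y v : ℝ) := by
  have h : HasFDerivAt (fun y => (V y : ℂ)) (Complex.ofRealCLM.comp (fderiv ℝ V y)) y :=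
    Complex.ofRealCLM.hasFDerivAt.comp y hV.hasFDerivAt
  rw [h.fderiv]
  rfl

/-- the hessian form along a complex line -/
lemma line_hess_real {V : Cm n → ℝ} (hV : ContDiff ℝ 2 V) (x v : Cm n) :
    fderiv ℝ (fun y => fderiv ℝ V y v) x v +
      fderiv ℝ (fun y => fderiv ℝ V y (Complex.I • v)) x (Complex.I • v) =
    4 * (∑ j, ∑ k, cHess V x j k * (v j * conj (v k))).re := by
  have hF : ContDiff ℝ 2 fun y => (V y : ℂ) := Complex.ofRealCLM.contDiff.comp hV
  have h1 := line_hess hF x v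
  have h2 : ∀ w : Cm n, fderiv ℝ (fun y => fderiv ℝ (fun y => (V y : ℂ)) y w) x w =
      ((fderiv ℝ (fun y => fderiv ℝ V y w) x w : ℝ) : ℂ) := by
    intro w
    have h3 : (fun y => fderiv ℝ (fun y => (V y : ℂ)) y w) = fun y => ((fderiv ℝ V y w : ℝ) : ℂ) := by
      funext y
      exact fderiv_ofReal_comp (hV.differentiable (by norm_num) y) w
    rw [h3]
    refine fderiv_ofReal_comp ?_ w
    exact (((hV.fderiv_right (m := 1) (by norm_num)).clm_apply contDiff_const).differentiable
      (by norm_num)) x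
  rw [h2, h2] at h1
  have h4 := congrArg Complex.re h1
  simp only [Complex.add_re, Complex.ofReal_re] at h4
  rw [h4]
  simp only [Complex.mul_re, Complex.re_ofNat, Complex.im_ofNat, zero_mul, sub_zero]
  rfl

lemma quad_form_nonneg {M : Matrix (Fin n) (Fin n) ℂ} (hM : M.PosSemidef) (v : Cm n) :
    0 ≤ (∑ j, ∑ k, M j k * (v j * conj (v k))).re := by
  have h := hM.re_dotProduct_nonneg (fun i => conj (v i))
  have h1 : ∑ j, ∑ k, M j k * (v j * conj (v k)) =
      star (fun i => conj (v i)) ⬝ᵥ (M.mulVec fun i => conj (v i)) := by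
    unfold dotProduct Matrix.mulVec dotProduct
    refine Finset.sum_congr rfl fun i _ => ?_
    rw [Finset.mul_sum]
    refine Finset.sum_congr rfl fun j _ => ?_
    simp only [Pi.star_apply, RCLike.star_def, Complex.conj_conj]
    ring
  rw [h1]
  exact h

/-- derivative along a line -/
lemma fderiv_line {G : Cm n → ℝ} (p z : Cm n) {ζ : ℂ}
    (hG : DifferentiableAt ℝ G (p + ζ • z)) (w : ℂ) :
    fderiv ℝ (fun ζ : ℂ => G (p + ζ • z)) ζ w = fderiv ℝ G (p + ζ • z) (w • z) := by
  have h1 : HasFDerivAt (fun ζ : ℂ => p + ζ • z)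
      (((ContinuousLinearMap.id ℝ ℂ).smulRight z)) ζ := by
    have h2 := ((ContinuousLinearMap.id ℝ ℂ).smulRight z).hasFDerivAt (x := ζ)
    exact h2.const_add p
  have h3 := hG.hasFDerivAt.comp ζ h1
  have h4 : fderiv ℝ (fun ζ : ℂ => G (p + ζ • z)) ζ = _ := h3.fderiv
  rw [h4]
  simp

lemma lap_line {V : Cm n → ℝ} (hV : ContDiff ℝ 2 V) (p z : Cm n) (ζ : ℂ) :
    lap (fun ζ : ℂ => V (p + ζ • z)) ζ =
      4 * (∑ j, ∑ k, cHess V (p + ζ • z) j k * (z j * conj (z k))).re := by
  rw [← line_hess_real hV]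
  unfold lap
  have hd : ∀ y, DifferentiableAt ℝ V y := hV.differentiable (by norm_num)
  have h1 : ∀ w : ℂ, (fun ζ : ℂ => fderiv ℝ (fun ζ : ℂ => V (p + ζ • z)) ζ w) =
      fun ζ : ℂ => fderiv ℝ V (p + ζ • z) (w • z) := by
    intro w
    funext ζ
    exact fderiv_line p z (hd _) w
  have h2 : ∀ w : ℂ, fderiv ℝ (fun ζ : ℂ => fderiv ℝ V (p + ζ • z) (w • z)) ζ w =
      fderiv ℝ (fun y => fderiv ℝ V y (w • z)) (p + ζ • z) (w • z) := by
    intro w
    refine fderiv_line (G := fun y => fderiv ℝ V y (w • z)) p z ?_ w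
    exact (((hV.fderiv_right (m := 1) (by norm_num)).clm_apply contDiff_const).differentiable
      (by norm_num)) _
  rw [h1, h1, h2, h2, one_smul]

/-- the complex scaling as a real linear map -/
def scal (n : ℕ) (ζ : ℂ) : Cm n →ₗ[ℝ] Cm n := (ζ • (LinearMap.id : Cm n →ₗ[ℂ] Cm n)).restrictScalars ℝ

lemma scal_apply (ζ : ℂ) (z : Cm n) : scal n ζ z = ζ • z := rfl

lemma det_scal (ζ : ℂ) : LinearMap.det (scal n ζ) = (‖ζ‖ ^ 2) ^ n := by
  unfold scal
  rw [LinearMap.det_restrictScalars, LinearMap.det_smul, LinearMap.det_id, mul_one, map_pow,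
    Algebra.norm_complex_apply, Complex.normSq_eq_norm_sq]
  simp

/-- scaling by `|ζ| ≤ 1` decreases the volume -/
lemma integral_le_scal {G : Cm n → ℝ} (hG : ∀ y, 0 ≤ G y) {ζ : ℂ} (h0 : ζ ≠ 0) (h1 : ‖ζ‖ ≤ 1) :
    ∫ y, G y ≤ ∫ z, G (ζ • z) := by
  have hz : 0 < ‖ζ‖ := norm_pos_iff.2 h0
  have hd : LinearMap.det (scal n ζ) ≠ 0 := by rw [det_scal]; positivity
  have hmap := Measure.map_linearMap_addHaar_eq_smul_addHaar (volume : Measure (Cm n)) hd
  have hemb : MeasurableEmbedding (scal n ζ) := by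
    have hinj : Function.Injective (scal n ζ) := by
      intro x y hxy
      rw [scal_apply, scal_apply] at hxy
      exact smul_right_injective (Cm n) h0 hxy
    exact (LinearMap.continuous_of_finiteDimensional (scal n ζ)).measurableEmbedding hinj
  have h2 : ∫ z, G (ζ • z) = ∫ y, G y ∂(Measure.map (scal n ζ) volume) := by
    rw [hemb.integral_map]
    rfl
  rw [h2, hmap, integral_smul_measure]
  have h3 : (ENNReal.ofReal |(LinearMap.det (scal n ζ))⁻¹|).toReal = ((‖ζ‖ ^ 2) ^ n)⁻¹ := by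
    rw [ENNReal.toReal_ofReal (abs_nonneg _), det_scal, abs_of_pos (by positivity)]
  rw [h3, smul_eq_mul]
  have h4 : 1 ≤ ((‖ζ‖ ^ 2) ^ n)⁻¹ := by
    rw [one_le_inv₀ (by positivity)]
    refine pow_le_one₀ (by positivity) ?_
    nlinarith
  have h5 : 0 ≤ ∫ y, G y := integral_nonneg hG
  nlinarith

end Vale.Agent.P272.K.LEX
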