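import Vale.Agent.P272.K.AMP.H470.Stmt9
import Vale.Agent.P272.K.AMP.LEX.Line
import Vale.Agent.P272.K.AMP.LEX.Exp2

/-! P272, AMP, Step 9: the local lemma `LocalExp`. -/

open scoped ContDiff ComplexOrder ComplexConjugate Topology
open MeasureTheory Set Filter

noncomputable section

namespace Vale.Agent.P272.K.LEX

variable {n : ℕ}

/-- the annulus -/
def ann : Set ℂ := Metric.ball 0 1 ∩ (Metric.closedBall 0 (1 / 2))ᶜ

lemma isOpen_ann : IsOpen ann := Metric.isOpen_ball.inter Metric.isClosed_closedBall.isOpen_compl

lemma ann_lt_top : volume ann < ⊤ := (measure_mono inter_subset_left).trans_lt measure_ball_lt_top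

lemma ann_pos : 0 < volume.real ann := by
  refine ENNReal.toReal_pos ?_ ann_lt_top.ne
  refine (isOpen_ann.measure_pos volume ⟨((3 / 4 : ℝ) : ℂ), ?_, ?_⟩).ne'
  · rw [mem_ball_zero_iff, Complex.norm_real]; norm_num
  · rw [mem_compl_iff, mem_closedBall_zero_iff, Complex.norm_real]; norm_num

/-- integrability on products of bounded sets -/
lemma integrable_prod_restrict {f : ℂ × Cm n → ℝ} (hf : Continuous f) {A : Set ℂ} {B : Set (Cm n)}
    {r s : ℝ} (hA : A ⊆ Metric.closedBall 0 r) (hB : B ⊆ Metric.closedBall 0 s) :
    Integrable f ((volume.restrict A).prod (volume.restrict B)) := by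
  rw [Measure.prod_restrict]
  have h1 : IntegrableOn f (Metric.closedBall (0 : ℂ) r ×ˢ Metric.closedBall (0 : Cm n) s)
      (volume.prod volume) :=
    hf.continuousOn.integrableOn_compact
      ((isCompact_closedBall _ _).prod (isCompact_closedBall _ _))
  exact h1.mono_set (prod_mono hA hB)

/-- from the lines through `p` to a full neighbourhood of `p` -/
theorem avg_le {F : Cm n → ℝ} (hF : Continuous F) (hF0 : ∀ y, 0 ≤ F y) (p : Cm n) {r K : ℝ}
    (h : ∀ z ∈ Metric.ball (0 : Cm n) (2 * r),
      ∫ ζ in Metric.ball (0 : ℂ) 1, F (p + ζ • z) ≤ K) :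
    ∫ y in Metric.ball p r, F y ≤
      volume.real (Metric.ball (0 : Cm n) (2 * r)) * K / volume.real ann := by
  set G : Cm n → ℝ := (Metric.ball (0 : Cm n) r).indicator fun y => F (p + y) with hG
  have hG0 : ∀ y, 0 ≤ G y := fun y => indicator_nonneg (fun _ _ => hF0 _) y
  have e1 : ∫ y in Metric.ball p r, F y = ∫ y, G y := by
    rw [← integral_indicator measurableSet_ball,
      ← integral_add_left_eq_self (μ := (volume : Measure (Cm n))) _ p]
    refine integral_congr_ae (Eventually.of_forall fun y => ?_)
    show (Metric.ball p r).indicator F (p + y) = G y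
    by_cases hy : y ∈ Metric.ball (0 : Cm n) r
    · have hy' : p + y ∈ Metric.ball p r := by
        rw [mem_ball_iff_norm, add_sub_cancel_left]; exact mem_ball_zero_iff.1 hy
      rw [hG, indicator_of_mem hy, indicator_of_mem hy']
    · have hy' : p + y ∉ Metric.ball p r := by
        rw [mem_ball_iff_norm, add_sub_cancel_left]
        intro h
        exact hy (mem_ball_zero_iff.2 h)
      rw [hG, indicator_of_notMem hy, indicator_of_notMem hy']
  have hcont : Continuous fun q : ℂ × Cm n => F (p + q.1 • q.2) := hF.comp (by fun_prop)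
  have hA : ann ⊆ Metric.closedBall 0 1 :=
    inter_subset_left.trans Metric.ball_subset_closedBall
  have hint := integrable_prod_restrict hcont hA
    (Metric.ball_subset_closedBall (x := (0 : Cm n)) (ε := 2 * r))
  have e2 : ∀ ζ ∈ ann, ∫ y, G y ≤ ∫ z in Metric.ball (0 : Cm n) (2 * r), F (p + ζ • z) := by
    intro ζ hζ
    have h1 : ‖ζ‖ < 1 := mem_ball_zero_iff.1 hζ.1
    have h2 : 1 / 2 < ‖ζ‖ := by
      have := hζ.2
      rw [mem_compl_iff, mem_closedBall_zero_iff, not_le] at this
      exact this
    have h0 : ζ ≠ 0 := by
      rintro rfl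
      rw [norm_zero] at h2
      norm_num at h2
    refine (integral_le_scal hG0 h0 h1.le).trans ?_
    rw [← integral_indicator measurableSet_ball]
    refine integral_mono_of_nonneg (Eventually.of_forall fun z => hG0 _) ?_
      (Eventually.of_forall fun z => ?_)
    · rw [integrable_indicator_iff measurableSet_ball]
      refine IntegrableOn.mono_set ?_ Metric.ball_subset_closedBall
      exact (hF.comp (by fun_prop : Continuous fun z : Cm n => p + ζ • z)).continuousOn.integrableOn_compact
        (isCompact_closedBall _ _)
    · show G (ζ • z) ≤ (Metric.ball (0 : Cm n) (2 * r)).indicator (fun z => F (p + ζ • z)) z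
      by_cases hz : ζ • z ∈ Metric.ball (0 : Cm n) r
      · have hz' : z ∈ Metric.ball (0 : Cm n) (2 * r) := by
          rw [mem_ball_zero_iff, norm_smul] at hz
          rw [mem_ball_zero_iff]
          nlinarith [norm_nonneg z]
        rw [hG, indicator_of_mem hz, indicator_of_mem hz']
      · rw [hG, indicator_of_notMem hz]
        exact indicator_nonneg (fun _ _ => hF0 _) z
  have e3 : volume.real ann * ∫ y, G y ≤
      volume.real (Metric.ball (0 : Cm n) (2 * r)) * K := by
    calc volume.real ann * ∫ y, G y = ∫ _ζ in ann, ∫ y, G y := by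
          rw [setIntegral_const, smul_eq_mul]
      _ ≤ ∫ ζ in ann, ∫ z in Metric.ball (0 : Cm n) (2 * r), F (p + ζ • z) := by
          refine setIntegral_mono_on (integrableOn_const ann_lt_top.ne) ?_ isOpen_ann.measurableSet
            e2
          exact hint.integral_prod_left
      _ = ∫ z in Metric.ball (0 : Cm n) (2 * r), ∫ ζ in ann, F (p + ζ • z) :=
          integral_integral_swap (f := fun ζ z => F (p + ζ • z)) hint
      _ ≤ ∫ _z in Metric.ball (0 : Cm n) (2 * r), K := by
          refine setIntegral_mono_on hint.integral_prod_right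
            (integrableOn_const measure_ball_lt_top.ne) measurableSet_ball fun z hz => ?_
          refine le_trans ?_ (h z hz)
          refine setIntegral_mono_set ?_ (Eventually.of_forall fun ζ => hF0 _)
            (Eventually.of_forall fun ζ hζ => hζ.1)
          refine IntegrableOn.mono_set ?_ Metric.ball_subset_closedBall
          exact (hF.comp (by fun_prop : Continuous fun ζ : ℂ => p + ζ • z)).continuousOn.integrableOn_compact
            (isCompact_closedBall _ _)
      _ = volume.real (Metric.ball (0 : Cm n) (2 * r)) * K := by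
          rw [setIntegral_const, smul_eq_mul]
  rw [e1, le_div_iff₀ ann_pos]
  linarith

/-- a plurisubharmonic function near a ball made global -/
lemma exists_global {R : ℝ} (hR : 0 < R) {a p : Cm n} {v : Cm n → ℝ}
    (hv : ∀ z ∈ Metric.ball a R, ContDiffAt ℝ ∞ v z) (hp : p ∈ Metric.ball a (R / 8)) :
    ∃ V : Cm n → ℝ, ContDiff ℝ 2 V ∧ ∀ z ∈ Metric.ball p (86 / 100 * R), V =ᶠ[𝓝 z] v := by
  have hpa : dist p a < R / 8 := hp
  let b : ContDiffBump p := ⟨86 / 100 * R, 87 / 100 * R, by positivity, by linarith⟩
  refine ⟨fun y => b y * v y, ?_, ?_⟩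
  · rw [contDiff_iff_contDiffAt]
    intro y
    by_cases hy : y ∈ Metric.ball a R
    · exact b.contDiff.contDiffAt.mul ((hv y hy).of_le (by norm_cast))
    · have h1 : y ∉ tsupport (b : Cm n → ℝ) := by
        rw [b.tsupport_eq]
        intro h
        apply hy
        have h2 : dist y p ≤ 87 / 100 * R := h
        rw [Metric.mem_ball]
        have := dist_triangle y p a
        linarith
      have h2 : (fun y => b y * v y) =ᶠ[𝓝 y] fun _ => (0 : ℝ) := by
        have h3 := notMem_tsupport_iff_eventuallyEq.1 h1
        filter_upwards [h3] with x hx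
        rw [hx]; simp
      exact contDiffAt_const.congr_of_eventuallyEq h2
  · intro z hz
    filter_upwards [Metric.isOpen_ball.mem_nhds hz] with x hx
    rw [b.one_of_mem_closedBall (Metric.ball_subset_closedBall hx), one_mul]

/-- **the local exponential integrability** -/
theorem localExp (n : ℕ) : AMP.LocalExp n := by
  intro R hR M
  obtain ⟨α, hα, K, hK⟩ := exp1D M
  refine ⟨α, hα, volume.real (Metric.ball (0 : Cm n) (2 * (R / 4))) * K / volume.real ann, ?_⟩
  rintro a v hv hpsh hneg ⟨p, hp, hpM⟩
  obtain ⟨V, hV, hVv⟩ := exists_global hR hv hp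
  have hpa : dist p a < R / 8 := hp
  have hin : ∀ z ∈ Metric.ball p (86 / 100 * R), z ∈ Metric.ball a R := by
    intro z hz
    have h1 : dist z p < 86 / 100 * R := hz
    have := dist_triangle z p a
    rw [Metric.mem_ball]
    linarith
  have hline : ∀ z ∈ Metric.ball (0 : Cm n) (2 * (R / 4)), ∀ w ∈ Metric.ball (0 : ℂ) (17 / 10),
      p + w • z ∈ Metric.ball p (86 / 100 * R) := by
    intro z hz w hw
    rw [mem_ball_zero_iff] at hz hw
    rw [mem_ball_iff_norm, add_sub_cancel_left, norm_smul]
    have h1 : ‖w‖ * ‖z‖ ≤ 17 / 10 * (2 * (R / 4)) :=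
      mul_le_mul hw.le hz.le (norm_nonneg _) (by norm_num)
    linarith
  have hmain := avg_le (n := n) (F := fun y => Real.exp (-(α * V y)))
    (Real.continuous_exp.comp (continuous_const.mul hV.continuous).neg)
    (fun y => (Real.exp_pos _).le) p (r := R / 4) (K := K) ?_
  · refine le_trans ?_ hmain
    have h1 : ∫ z in Metric.ball a (R / 8), Real.exp (-(α * v z)) =
        ∫ z in Metric.ball a (R / 8), Real.exp (-(α * V z)) := by
      refine setIntegral_congr_fun measurableSet_ball fun z hz => ?_
      have h2 : z ∈ Metric.ball p (86 / 100 * R) := by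
        have h3 : dist z a < R / 8 := hz
        have := dist_triangle_right z p a
        rw [Metric.mem_ball]
        linarith
      show Real.exp (-(α * v z)) = Real.exp (-(α * V z))
      rw [(hVv z h2).eq_of_nhds]
    rw [h1]
    refine setIntegral_mono_set ?_ (Eventually.of_forall fun ζ => (Real.exp_pos _).le)
      (Eventually.of_forall fun z hz => ?_)
    · refine IntegrableOn.mono_set ?_ Metric.ball_subset_closedBall
      exact (Real.continuous_exp.comp
        (continuous_const.mul hV.continuous).neg).continuousOn.integrableOn_compact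
        (isCompact_closedBall _ _)
    · have h3 : dist z a < R / 8 := hz
      have := dist_triangle_right z p a
      show dist z p < R / 4
      linarith
  · intro z hz
    refine hK (fun ζ => V (p + ζ • z)) ?_ ?_ ?_ ?_
    · exact hV.comp (contDiff_const.add (contDiff_id.smul contDiff_const))
    · intro w hw
      rw [lap_line hV]
      have hx := hline z hz w hw
      have h1 : cHess V (p + w • z) = cHess v (p + w • z) := by
        unfold cHess
        ext j k
        simp only [Matrix.of_apply]
        refine INT.dz_congr (INT.dzb_congr' ?_)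
        filter_upwards [hVv _ hx] with y hy
        rw [hy]
      rw [h1]
      exact mul_nonneg (by norm_num) (quad_form_nonneg (hpsh _ (hin _ hx)) z)
    · intro w hw
      have hx := hline z hz w hw
      show V (p + w • z) ≤ 0
      rw [(hVv _ hx).eq_of_nhds]
      exact hneg _ (hin _ hx)
    · show -M ≤ V (p + (0 : ℂ) • z)
      rw [zero_smul, add_zero, (hVv p (Metric.mem_ball_self (by positivity))).eq_of_nhds]
      exact hpM

end Vale.Agent.P272.K.LEX
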