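import Mathlib.LinearAlgebra.Complex.FiniteDimensional
import Vale.Agent.P272.K.AMP.LEX.Lap

/-! P272, AMP, Step 9 local lemma: the approximate identity `ε² / (|w - z|² + ε²)²`. -/

open Complex MeasureTheory Set Filter Topology

noncomputable section

namespace Vale.Agent.P272.K.LEX

/-- the kernel -/
def rho (ε : ℝ) (z w : ℂ) : ℝ := ε ^ 2 / (‖w - z‖ ^ 2 + ε ^ 2) ^ 2

/-- its mass -/
def kap : ℝ := ∫ s : ℂ, ((‖s‖ ^ 2 + 1) ^ 2)⁻¹

lemma integrable_kap : Integrable (fun s : ℂ => ((‖s‖ ^ 2 + 1) ^ 2)⁻¹) := by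
  have h := integrable_rpow_neg_one_add_norm_sq (E := ℂ) (μ := volume) (r := 4)
    (by rw [Complex.finrank_real_complex]; norm_num)
  refine h.congr (Eventually.of_forall fun s => ?_)
  have h1 : (0 : ℝ) < 1 + ‖s‖ ^ 2 := by positivity
  show (1 + ‖s‖ ^ 2) ^ (-(4 : ℝ) / 2) = ((‖s‖ ^ 2 + 1) ^ 2)⁻¹
  rw [show (-(4 : ℝ) / 2) = -(2 : ℕ) by norm_num, Real.rpow_neg h1.le, Real.rpow_natCast,
    add_comm]

lemma kap_pos : 0 < kap := by
  unfold kap
  rw [integral_pos_iff_support_of_nonneg (fun s => by positivity) integrable_kap]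
  have : Function.support (fun s : ℂ => ((‖s‖ ^ 2 + 1) ^ 2)⁻¹) = univ := by
    ext s
    simp only [Function.mem_support, mem_univ, iff_true]
    positivity
  rw [this]
  simp

lemma rho_nonneg (ε : ℝ) (z w : ℂ) : 0 ≤ rho ε z w := by
  unfold rho
  positivity

lemma continuous_rho {ε : ℝ} (hε : 0 < ε) : Continuous fun q : ℂ × ℂ => rho ε q.1 q.2 := by
  unfold rho
  refine Continuous.div continuous_const (by fun_prop) fun q => ?_
  positivity

lemma continuous_rho_right {ε : ℝ} (hε : 0 < ε) (z : ℂ) : Continuous (rho ε z) := by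
  unfold rho
  refine Continuous.div continuous_const (by fun_prop) fun q => ?_
  positivity

lemma integral_rho {F : ℂ → ℝ} {ε : ℝ} (hε : 0 < ε) (z : ℂ) :
    ∫ w, F w * rho ε z w = ∫ s : ℂ, F (z + (ε : ℝ) • s) * ((‖s‖ ^ 2 + 1) ^ 2)⁻¹ := by
  have e1 : ∫ w, F w * rho ε z w = ∫ w, F (z + w) * rho ε z (z + w) :=
    (integral_add_left_eq_self (μ := (volume : Measure ℂ)) (fun w => F w * rho ε z w) z).symm
  have e2 := Measure.integral_comp_smul (volume : Measure ℂ)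
    (fun w => F (z + w) * rho ε z (z + w)) ε
  rw [e1]
  rw [Complex.finrank_real_complex] at e2
  have h3 : |(ε ^ 2)⁻¹| = (ε ^ 2)⁻¹ := abs_of_pos (by positivity)
  rw [h3, smul_eq_mul] at e2
  have e4 : ∫ w, F (z + w) * rho ε z (z + w) =
      ε ^ 2 * ∫ x, F (z + ε • x) * rho ε z (z + ε • x) := by
    rw [e2]
    field_simp
  rw [e4, ← integral_const_mul]
  refine integral_congr_ae (Eventually.of_forall fun s => ?_)
  show ε ^ 2 * (F (z + ε • s) * rho ε z (z + ε • s)) = _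
  unfold rho
  have h5 : ‖z + ε • s - z‖ = ε * ‖s‖ := by
    rw [add_sub_cancel_left, norm_smul, Real.norm_eq_abs, abs_of_pos hε]
  rw [h5]
  have h6 : ‖s‖ ^ 2 + 1 ≠ 0 := by positivity
  have h7 : (ε * ‖s‖) ^ 2 + ε ^ 2 = ε ^ 2 * (‖s‖ ^ 2 + 1) := by ring
  rw [h7]
  field_simp

theorem tendsto_rho {F : ℂ → ℝ} (hF : Continuous F) {B : ℝ} (hB : ∀ w, |F w| ≤ B) (z : ℂ) :
    Tendsto (fun ε : ℝ => ∫ w, F w * rho ε z w) (𝓝[>] 0) (𝓝 (F z * kap)) := by
  have h0 : Tendsto (fun ε : ℝ => ∫ s : ℂ, F (z + (ε : ℝ) • s) * ((‖s‖ ^ 2 + 1) ^ 2)⁻¹)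
      (𝓝[>] 0) (𝓝 (∫ s : ℂ, F z * ((‖s‖ ^ 2 + 1) ^ 2)⁻¹)) := by
    refine tendsto_integral_filter_of_dominated_convergence
      (fun s => B * ((‖s‖ ^ 2 + 1) ^ 2)⁻¹) ?_ ?_ (integrable_kap.const_mul B) ?_
    · refine Eventually.of_forall fun ε => ?_
      refine Continuous.aestronglyMeasurable ?_
      refine (hF.comp (by fun_prop)).mul ?_
      exact Continuous.inv₀ (by fun_prop) fun s => by positivity
    · refine Eventually.of_forall fun ε => Eventually.of_forall fun s => ?_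
      rw [Real.norm_eq_abs, abs_mul]
      have h1 : |((‖s‖ ^ 2 + 1) ^ 2)⁻¹| = ((‖s‖ ^ 2 + 1) ^ 2)⁻¹ := abs_of_pos (by positivity)
      rw [h1]
      exact mul_le_mul_of_nonneg_right (hB _) (by positivity)
    · refine Eventually.of_forall fun s => ?_
      refine Tendsto.mul_const _ ?_
      have h1 : Continuous fun ε : ℝ => F (z + ε • s) := hF.comp (by fun_prop)
      have h2 := (h1.tendsto 0).mono_left (nhdsWithin_le_nhds (s := Ioi (0 : ℝ)))
      simpa using h2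
  rw [integral_const_mul] at h0
  refine h0.congr' ?_
  filter_upwards [self_mem_nhdsWithin] with ε hε
  exact (integral_rho hε z).symm

end Vale.Agent.P272.K.LEX
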