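import Vale.Agent.P272.K.AMP.LEX.SubM

/-! P272, AMP, Step 9 local lemma: potentials in dimension one. -/

open Complex MeasureTheory Set Filter Topology

noncomputable section

namespace Vale.Agent.P272.K.LEX

/-- the cut-off function -/
def cut : ContDiffBump (0 : ℂ) where
  rIn := 5 / 4
  rOut := 3 / 2
  rIn_pos := by norm_num
  rIn_lt_rOut := by norm_num

lemma contDiff_cut : ContDiff ℝ 2 (cut : ℂ → ℝ) := cut.contDiff

lemma cut_one {w : ℂ} (h : ‖w‖ ≤ 5 / 4) : cut w = 1 :=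
  cut.one_of_mem_closedBall (mem_closedBall_zero_iff.2 h)

lemma cut_zero {w : ℂ} (h : 3 / 2 ≤ ‖w‖) : cut w = 0 :=
  cut.zero_of_le_dist (by rw [dist_zero_right]; exact h)

lemma tsupport_cut : tsupport (cut : ℂ → ℝ) = Metric.closedBall 0 (3 / 2) := cut.tsupport_eq

lemma notMem_tsupport_cut {w : ℂ} (h : 3 / 2 < ‖w‖) : w ∉ tsupport (cut : ℂ → ℝ) := by
  rw [tsupport_cut, mem_closedBall_zero_iff, not_le]
  exact h

lemma cut_eventually {w : ℂ} (h : ‖w‖ < 5 / 4) : (cut : ℂ → ℝ) =ᶠ[𝓝 w] fun _ => 1 := by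
  have h1 : Metric.ball (0 : ℂ) (5 / 4) ∈ 𝓝 w :=
    Metric.isOpen_ball.mem_nhds (mem_ball_zero_iff.2 h)
  filter_upwards [h1] with y hy using cut_one (mem_ball_zero_iff.1 hy).le

lemma exists_bound {F : ℂ → ℝ} (hF : Continuous F) (h : ∀ w, 3 / 2 < ‖w‖ → F w = 0) :
    ∃ B, 0 ≤ B ∧ ∀ w, |F w| ≤ B := by
  obtain ⟨B, hB⟩ := hF.bounded_above_of_compact_support
    (HasCompactSupport.intro (isCompact_closedBall (0 : ℂ) (3 / 2)) fun w hw => h w (by
      rw [mem_closedBall_zero_iff, not_le] at hw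
      exact hw))
  exact ⟨B, (norm_nonneg (F 0)).trans (hB 0), hB⟩

lemma exists_cut_bound : ∃ D, 0 ≤ D ∧ ∀ w, |fderiv ℝ (cut : ℂ → ℝ) w 1| ≤ D ∧
    |fderiv ℝ (cut : ℂ → ℝ) w I| ≤ D ∧ |lap (cut : ℂ → ℝ) w| ≤ D := by
  obtain ⟨B1, h1, h1'⟩ := exists_bound (contDiff_fderiv_apply contDiff_cut 1).continuous
    fun w hw => by rw [fderiv_zero_of_notMem (notMem_tsupport_cut hw)]; simp
  obtain ⟨B2, h2, h2'⟩ := exists_bound (contDiff_fderiv_apply contDiff_cut I).continuous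
    fun w hw => by rw [fderiv_zero_of_notMem (notMem_tsupport_cut hw)]; simp
  obtain ⟨B3, h3, h3'⟩ := exists_bound (continuous_lap contDiff_cut)
    fun w hw => lap_zero_of_notMem (notMem_tsupport_cut hw)
  refine ⟨B1 + B2 + B3, by positivity, fun w => ⟨?_, ?_, ?_⟩⟩
  · linarith [h1' w]
  · linarith [h2' w]
  · linarith [h3' w]

/-- the logarithmic potential -/
def Phi (ε : ℝ) (z w : ℂ) : ℝ := (Real.log 9 - Real.log (sq z (ε ^ 2) w)) / 2

lemma contDiff_Phi {ε : ℝ} (hε : 0 < ε) (z : ℂ) : ContDiff ℝ 2 (Phi ε z) :=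
  (contDiff_const.sub ((contDiff_sq z (ε ^ 2)).log fun w => (sq_pos hε z w).ne')).div_const 2

lemma hasDerivAt_logg {s : ℝ} (hs : 0 < s) :
    HasDerivAt (fun s => (Real.log 9 - Real.log s) / 2) (-(2 * s)⁻¹) s := by
  refine (((Real.hasDerivAt_log hs.ne').const_sub (Real.log 9)).div_const 2).congr_deriv ?_
  field_simp

lemma hasDerivAt_logg2 {s : ℝ} (hs : 0 < s) :
    HasDerivAt (fun s : ℝ => -(2 * s)⁻¹) (2 * s ^ 2)⁻¹ s := by
  have h1 : HasDerivAt (fun s : ℝ => 2 * s) 2 s := by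
    simpa using (hasDerivAt_id s).const_mul 2
  refine (h1.fun_inv (by positivity)).neg.congr_deriv ?_
  field_simp

lemma lap_Phi {ε : ℝ} (hε : 0 < ε) (z w : ℂ) : lap (Phi ε z) w = -2 * rho ε z w := by
  have h0 := sq_pos hε z w
  have h1 : ∀ᶠ s in 𝓝 (sq z (ε ^ 2) w),
      HasDerivAt (fun s => (Real.log 9 - Real.log s) / 2) ((fun s => -(2 * s)⁻¹) s) s := by
    filter_upwards [Ioi_mem_nhds h0] with s hs using hasDerivAt_logg hs
  have h3 := lap_radial h1 (hasDerivAt_logg2 h0)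
  have h6 : lap (Phi ε z) w = lap (fun y => (Real.log 9 - Real.log (sq z (ε ^ 2) y)) / 2) w := rfl
  rw [h6, h3]
  have h4 : ‖w - z‖ ^ 2 = sq z (ε ^ 2) w - ε ^ 2 := by unfold sq; ring
  have h5 : rho ε z w = ε ^ 2 / (sq z (ε ^ 2) w) ^ 2 := rfl
  rw [h4, h5]
  field_simp
  ring

lemma fderiv_Phi {ε : ℝ} (hε : 0 < ε) (z w v : ℂ) : fderiv ℝ (Phi ε z) w v =
    -(((w - z).re * v.re + (w - z).im * v.im) / sq z (ε ^ 2) w) := by
  have h0 := sq_pos hε z w
  have h1 := fderiv_radial (z := z) (w := w) (c := ε ^ 2) (hasDerivAt_logg h0) v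
  have h6 : fderiv ℝ (Phi ε z) w v =
    fderiv ℝ (fun y => (Real.log 9 - Real.log (sq z (ε ^ 2) y)) / 2) w v := rfl
  rw [h6, h1]
  field_simp

lemma exp_Phi {ε : ℝ} (hε : 0 < ε) (z w : ℂ) :
    Real.exp (Phi ε z w) = 3 / √(sq z (ε ^ 2) w) := by
  have h0 := sq_pos hε z w
  have h1 : Phi ε z w = Real.log (3 / √(sq z (ε ^ 2) w)) := by
    rw [Real.log_div (by norm_num) (Real.sqrt_pos.2 h0).ne', Real.log_sqrt h0.le]
    unfold Phi
    rw [show (9 : ℝ) = 3 ^ 2 by norm_num, Real.log_pow]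
    push_cast
    ring
  rw [h1, Real.exp_log (by positivity)]

lemma Phi_nonneg {ε : ℝ} (hε : 0 < ε) (hε1 : ε ≤ 1) {z w : ℂ} (hz : ‖z‖ < 1)
    (hw : ‖w‖ ≤ 3 / 2) : 0 ≤ Phi ε z w := by
  unfold Phi
  have h0 := sq_pos hε z w
  have h1 : ‖w - z‖ ≤ 5 / 2 := (norm_sub_le w z).trans (by linarith)
  have h2 : sq z (ε ^ 2) w ≤ 9 := by
    unfold sq
    nlinarith [norm_nonneg (w - z)]
  have h3 := Real.log_le_log h0 h2
  linarith

/-- the error term -/
def Er (ε : ℝ) (z w : ℂ) : ℝ :=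
  2 * (fderiv ℝ (cut : ℂ → ℝ) w 1 * fderiv ℝ (Phi ε z) w 1 +
    fderiv ℝ (cut : ℂ → ℝ) w I * fderiv ℝ (Phi ε z) w I) + Phi ε z w * lap (cut : ℂ → ℝ) w

lemma Er_bound {D : ℝ} (hD0 : 0 ≤ D) (hD : ∀ w, |fderiv ℝ (cut : ℂ → ℝ) w 1| ≤ D ∧
    |fderiv ℝ (cut : ℂ → ℝ) w I| ≤ D ∧ |lap (cut : ℂ → ℝ) w| ≤ D)
    {ε : ℝ} (hε : 0 < ε) (hε1 : ε ≤ 1) {z w : ℂ} (hz : ‖z‖ < 1)
    (hw : ‖w‖ ≤ 3 / 2) : |Er ε z w| ≤ 100 * D := by
  rcases lt_or_ge ‖w‖ (5 / 4) with h | h
  · have h1 : fderiv ℝ (cut : ℂ → ℝ) w = 0 := by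
      rw [(cut_eventually h).fderiv_eq]; simp
    have h2 : lap (cut : ℂ → ℝ) w = 0 := by
      rw [lap_congr (cut_eventually h), lap_const]
    unfold Er
    rw [h1, h2]
    simp
    positivity
  · obtain ⟨d1, d2, d3⟩ := hD w
    have h0 := sq_pos hε z w
    have hwz : 1 / 4 ≤ ‖w - z‖ := by
      have := norm_sub_norm_le w z
      linarith
    have hs : 1 / 16 ≤ sq z (ε ^ 2) w := by
      unfold sq
      nlinarith [sq_nonneg ε]
    have hsq : ‖w - z‖ ^ 2 ≤ sq z (ε ^ 2) w := by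
      unfold sq
      nlinarith [sq_nonneg ε]
    -- the gradient of Phi
    have hg : ∀ x : ℝ, |x| ≤ ‖w - z‖ → |x / sq z (ε ^ 2) w| ≤ 4 := by
      intro x hx
      rw [abs_div, abs_of_pos h0, div_le_iff₀ h0]
      nlinarith [norm_nonneg (w - z)]
    have g1 : |fderiv ℝ (Phi ε z) w 1| ≤ 4 := by
      rw [fderiv_Phi hε, abs_neg]
      refine hg _ ?_
      simpa using Complex.abs_re_le_norm (w - z)
    have g2 : |fderiv ℝ (Phi ε z) w I| ≤ 4 := by
      rw [fderiv_Phi hε, abs_neg]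
      refine hg _ ?_
      simpa using Complex.abs_im_le_norm (w - z)
    have g3 : |Phi ε z w| ≤ 72 := by
      rw [abs_of_nonneg (Phi_nonneg hε hε1 hz hw)]
      have h5 : Phi ε z w = Real.log (9 / sq z (ε ^ 2) w) / 2 := by
        rw [Real.log_div (by norm_num) h0.ne']; rfl
      have h6 := Real.log_le_sub_one_of_pos (show 0 < 9 / sq z (ε ^ 2) w by positivity)
      have h7 : 9 / sq z (ε ^ 2) w ≤ 144 := by
        rw [div_le_iff₀ h0]; linarith
      rw [h5]
      linarith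
    unfold Er
    have e1 := mul_le_mul d1 g1 (abs_nonneg _) hD0
    have e2 := mul_le_mul d2 g2 (abs_nonneg _) hD0
    have e3 := mul_le_mul g3 d3 (abs_nonneg _) (by norm_num)
    rw [← abs_mul] at e1 e2 e3
    have e4 := abs_add_le (2 * (fderiv ℝ (cut : ℂ → ℝ) w 1 * fderiv ℝ (Phi ε z) w 1 +
      fderiv ℝ (cut : ℂ → ℝ) w I * fderiv ℝ (Phi ε z) w I)) (Phi ε z w * lap (cut : ℂ → ℝ) w)
    have e5 := abs_add_le (fderiv ℝ (cut : ℂ → ℝ) w 1 * fderiv ℝ (Phi ε z) w 1)
      (fderiv ℝ (cut : ℂ → ℝ) w I * fderiv ℝ (Phi ε z) w I)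
    rw [abs_mul 2, abs_two] at e4
    linarith

lemma lap_cut_Phi {ε : ℝ} (hε : 0 < ε) (z w : ℂ) :
    lap (fun y => cut y * Phi ε z y) w = -2 * (cut w * rho ε z w) + Er ε z w := by
  rw [lap_mul contDiff_cut (contDiff_Phi hε z), lap_Phi hε]
  unfold Er
  ring

/-- the mass of the cut-off Riesz measure -/
lemma mass_le {D : ℝ} (hD : ∀ w, |fderiv ℝ (cut : ℂ → ℝ) w 1| ≤ D ∧
    |fderiv ℝ (cut : ℂ → ℝ) w I| ≤ D ∧ |lap (cut : ℂ → ℝ) w| ≤ D)
    {U : ℂ → ℝ} (hU : ContDiff ℝ 2 U)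
    (hn : ∀ w ∈ Metric.ball (0 : ℂ) (17 / 10), U w ≤ 0) :
    ∫ w, cut w * lap U w ≤ D * ∫ w in Metric.closedBall (0 : ℂ) (3 / 2), -U w := by
  rw [ibp cut.hasCompactSupport contDiff_cut hU, ← integral_const_mul,
    ← integral_indicator measurableSet_closedBall]
  refine integral_mono ?_ ?_ fun w => ?_
  · exact (hU.continuous.mul (continuous_lap contDiff_cut)).integrable_of_hasCompactSupport
      (lap_tsupport cut.hasCompactSupport).mul_left
  · rw [integrable_indicator_iff measurableSet_closedBall]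
    exact (continuous_const.mul hU.continuous.neg).continuousOn.integrableOn_compact
      (isCompact_closedBall _ _)
  · show U w * lap (cut : ℂ → ℝ) w ≤
      (Metric.closedBall (0 : ℂ) (3 / 2)).indicator (fun w => D * -U w) w
    rcases le_or_gt ‖w‖ (3 / 2) with h | h
    · rw [indicator_of_mem (mem_closedBall_zero_iff.2 h)]
      have hu : 0 ≤ -U w := by
        have := hn w (by rw [mem_ball_zero_iff]; linarith)
        linarith
      have := (abs_le.1 (hD w).2.2).1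
      nlinarith
    · rw [indicator_of_notMem (by rw [mem_closedBall_zero_iff, not_le]; exact h),
        lap_zero_of_notMem (notMem_tsupport_cut h), mul_zero]

/-- the potential estimate -/
lemma pot_le {D : ℝ} (hD0 : 0 ≤ D) (hD : ∀ w, |fderiv ℝ (cut : ℂ → ℝ) w 1| ≤ D ∧
    |fderiv ℝ (cut : ℂ → ℝ) w I| ≤ D ∧ |lap (cut : ℂ → ℝ) w| ≤ D)
    {U : ℂ → ℝ} (hU : ContDiff ℝ 2 U)
    (hn : ∀ w ∈ Metric.ball (0 : ℂ) (17 / 10), U w ≤ 0)
    {ε : ℝ} (hε : 0 < ε) (hε1 : ε ≤ 1) {z : ℂ} (hz : ‖z‖ < 1) :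
    2 * ∫ w, (-U w * cut w) * rho ε z w ≤ (∫ w, Phi ε z w * (cut w * lap U w)) +
      100 * D * ∫ w in Metric.closedBall (0 : ℂ) (3 / 2), -U w := by
  have hUc := hU.continuous
  have hcp : ContDiff ℝ 2 fun y => cut y * Phi ε z y := contDiff_cut.mul (contDiff_Phi hε z)
  have hcs : HasCompactSupport fun y => cut y * Phi ε z y := cut.hasCompactSupport.mul_right
  have h1 := ibp hcs hcp hU
  have e1 : ∫ w, Phi ε z w * (cut w * lap U w) = ∫ w, (cut w * Phi ε z w) * lap U w := by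
    refine integral_congr_ae (Eventually.of_forall fun w => ?_)
    show Phi ε z w * (cut w * lap U w) = (cut w * Phi ε z w) * lap U w
    ring
  rw [e1, h1, ← integral_const_mul, ← integral_const_mul,
    ← integral_indicator measurableSet_closedBall, ← integral_add]
  rotate_left
  · exact (hUc.mul (continuous_lap hcp)).integrable_of_hasCompactSupport
      (lap_tsupport hcs).mul_left
  · rw [integrable_indicator_iff measurableSet_closedBall]
    exact (continuous_const.mul hU.continuous.neg).continuousOn.integrableOn_compact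
      (isCompact_closedBall _ _)
  refine integral_mono ?_ ?_ fun w => ?_
  · have hc : Continuous fun w => 2 * ((-U w * cut w) * rho ε z w) :=
      continuous_const.mul ((hUc.neg.mul contDiff_cut.continuous).mul (continuous_rho_right hε z))
    exact integrable_of_zero hc (r := 3 / 2) fun w hw => by rw [cut_zero hw]; simp
  · refine Integrable.add ?_ ?_
    · exact (hUc.mul (continuous_lap hcp)).integrable_of_hasCompactSupport
        (lap_tsupport hcs).mul_left
    · rw [integrable_indicator_iff measurableSet_closedBall]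
      exact (continuous_const.mul hU.continuous.neg).continuousOn.integrableOn_compact
        (isCompact_closedBall _ _)
  · show 2 * ((-U w * cut w) * rho ε z w) ≤ U w * lap (fun y => cut y * Phi ε z y) w +
      (Metric.closedBall (0 : ℂ) (3 / 2)).indicator (fun w => 100 * D * -U w) w
    rcases le_or_gt ‖w‖ (3 / 2) with h | h
    · rw [indicator_of_mem (mem_closedBall_zero_iff.2 h), lap_cut_Phi hε]
      have hu : 0 ≤ -U w := by
        have := hn w (by rw [mem_ball_zero_iff]; linarith)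
        linarith
      have := (abs_le.1 (Er_bound hD0 hD hε hε1 hz h)).2
      nlinarith
    · rw [indicator_of_notMem (by rw [mem_closedBall_zero_iff, not_le]; exact h),
        lap_zero_of_notMem, mul_zero, cut_zero h.le]
      · simp
      · intro hmem
        refine notMem_tsupport_cut h (closure_mono ?_ hmem)
        intro y hy hy2
        exact hy (by simp [hy2])

/-- a substitute for Jensen's inequality -/
lemma jensen {q Φ : ℂ → ℝ} (hq : ∀ w, 0 ≤ q w) (iq : Integrable q)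
    (iΦ : Integrable fun w => Φ w * q w) (ie : Integrable fun w => Real.exp (Φ w) * q w)
    {m : ℝ} (hm : 0 < m) (hqm : ∫ w, q w ≤ m) :
    Real.exp ((∫ w, Φ w * q w) / m) ≤ 1 + (∫ w, Real.exp (Φ w) * q w) / m := by
  set c := (∫ w, Φ w * q w) / m with hc
  have hc' : ∫ w, Φ w * q w = c * m := by rw [hc]; field_simp
  have h1 : ∫ w, Real.exp c * ((1 - c) * q w + Φ w * q w) ≤ ∫ w, Real.exp (Φ w) * q w := by
    refine integral_mono (((iq.const_mul _).add iΦ).const_mul _) ie fun w => ?_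
    show Real.exp c * ((1 - c) * q w + Φ w * q w) ≤ Real.exp (Φ w) * q w
    have h2 := Real.add_one_le_exp (Φ w - c)
    have h3 : Real.exp (Φ w) = Real.exp c * Real.exp (Φ w - c) := by
      rw [← Real.exp_add]; congr 1; ring
    rw [h3]
    have h4 := mul_le_mul_of_nonneg_left h2 (Real.exp_pos c).le
    have h5 := mul_le_mul_of_nonneg_right h4 (hq w)
    nlinarith
  rw [integral_const_mul, integral_add (iq.const_mul _) iΦ, integral_const_mul, hc'] at h1
  have hq0 : 0 ≤ ∫ w, q w := integral_nonneg hq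
  have h6 : Real.exp c * (1 - c) ≤ 1 := by
    have h7 := Real.add_one_le_exp (-c)
    have h8 : Real.exp c * Real.exp (-c) = 1 := by rw [← Real.exp_add]; simp
    have h9 := mul_le_mul_of_nonneg_left h7 (Real.exp_pos c).le
    rw [h8] at h9
    nlinarith
  have h10 : Real.exp c * m ≤ m + ∫ w, Real.exp (Φ w) * q w := by
    have h11 : (Real.exp c * (1 - c)) * (m - ∫ w, q w) ≤ m := by
      have h12 : 0 ≤ m - ∫ w, q w := by linarith
      have h13 := mul_le_mul_of_nonneg_right h6 h12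
      linarith
    nlinarith
  have h14 : Real.exp c = Real.exp c * m / m := by field_simp
  rw [h14, show 1 + (∫ w, Real.exp (Φ w) * q w) / m = (m + ∫ w, Real.exp (Φ w) * q w) / m by
    field_simp]
  exact div_le_div_of_nonneg_right h10 hm.le

end Vale.Agent.P272.K.LEX
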