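import Vale.Agent.P272.K.AMP.LEX.Approx

/-! P272, AMP, Step 9 local lemma: the one dimensional `L¹` estimate. -/

open Complex MeasureTheory Set Filter Topology

noncomputable section

namespace Vale.Agent.P272.K.LEX

/-- `max t 0 ^ 2` is `C¹` -/
lemma hasDerivAt_max_sq (t : ℝ) : HasDerivAt (fun t : ℝ => (max t 0) ^ 2) (2 * max t 0) t := by
  rcases lt_trichotomy t 0 with h | h | h
  · have h1 : (fun t : ℝ => (max t 0) ^ 2) =ᶠ[𝓝 t] fun _ => 0 := by
      filter_upwards [Iio_mem_nhds h] with s hs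
      rw [max_eq_right (le_of_lt hs)]; simp
    rw [max_eq_right h.le, mul_zero]
    exact (hasDerivAt_const t (0 : ℝ)).congr_of_eventuallyEq h1
  · subst h
    rw [max_self, mul_zero, hasDerivAt_iff_isLittleO_nhds_zero]
    have h2 : (fun h : ℝ => (max (0 + h) 0) ^ 2 - (max (0 : ℝ) 0) ^ 2 - h • (0 : ℝ)) =O[𝓝 0]
        fun h : ℝ => h ^ 2 := by
      refine Asymptotics.IsBigO.of_bound 1 (Eventually.of_forall fun h => ?_)
      simp only [zero_add, max_self, smul_eq_mul, mul_zero, sub_zero, ne_eq, OfNat.ofNat_ne_zero,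
        not_false_eq_true, zero_pow, one_mul]
      rw [Real.norm_eq_abs, Real.norm_eq_abs, abs_of_nonneg (by positivity),
        abs_of_nonneg (by positivity)]
      rcases le_total h 0 with h' | h'
      · rw [max_eq_right h']; simp; positivity
      · rw [max_eq_left h']
    refine h2.trans_isLittleO ?_
    have h3 : (fun h : ℝ => h ^ 2) =o[𝓝 0] fun h : ℝ => h ^ 1 :=
      Asymptotics.isLittleO_pow_pow one_lt_two
    simpa using h3
  · have h1 : (fun t : ℝ => (max t 0) ^ 2) =ᶠ[𝓝 t] fun t => t ^ 2 := by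
      filter_upwards [Ioi_mem_nhds h] with s hs
      rw [max_eq_left (le_of_lt hs)]
    rw [max_eq_left h.le]
    refine HasDerivAt.congr_of_eventuallyEq ?_ h1
    simpa using hasDerivAt_pow 2 t

/-- the cut-off `m(t) = max (1 - t/S) 0`, with `S = 25/9` -/
def mm (t : ℝ) : ℝ := max (1 - 9 / 25 * t) 0

lemma mm_nonneg (t : ℝ) : 0 ≤ mm t := le_max_right _ _

lemma continuous_mm : Continuous mm := by unfold mm; fun_prop

lemma hasDerivAt_mm_sq (t : ℝ) : HasDerivAt (fun t => mm t ^ 2) (-(18 / 25) * mm t) t := by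
  have h1 := (hasDerivAt_max_sq (1 - 9 / 25 * t)).comp t
    (((hasDerivAt_id t).const_mul (9 / 25)).const_sub 1)
  refine HasDerivAt.congr_deriv (f := fun t => mm t ^ 2) h1 ?_
  unfold mm
  ring

/-- the density `m(t)²/t` -/
def pp (t : ℝ) : ℝ := mm t ^ 2 / t

lemma pp_nonneg {t : ℝ} (ht : 0 < t) : 0 ≤ pp t := by unfold pp; positivity

lemma hasDerivAt_pp {t : ℝ} (ht : 0 < t) :
    HasDerivAt pp ((-(18 / 25) * mm t * t - mm t ^ 2) / t ^ 2) t := by
  have h := (hasDerivAt_mm_sq t).div (hasDerivAt_id t) ht.ne'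
  refine HasDerivAt.congr_deriv (f := pp) h ?_
  simp

lemma continuousOn_pp : ContinuousOn pp (Ioi 0) := fun t ht =>
  (hasDerivAt_pp ht).continuousAt.continuousWithinAt

/-- the primitive `∫_t^S m²/t` -/
def gg (s : ℝ) : ℝ := ∫ t in s..(25 / 9), pp t

lemma hasDerivAt_gg {s : ℝ} (hs : 0 < s) : HasDerivAt gg (-pp s) s := by
  have hsub : uIcc s (25 / 9) ⊆ Ioi (0 : ℝ) := by
    intro t ht
    rw [mem_uIcc] at ht
    rcases ht with h | h
    · exact lt_of_lt_of_le hs h.1
    · exact lt_of_lt_of_le (by norm_num) h.1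
  refine intervalIntegral.integral_hasDerivAt_left
    (continuousOn_pp.mono hsub).intervalIntegrable ?_ ?_
  · exact continuousOn_pp.stronglyMeasurableAtFilter isOpen_Ioi s hs
  · exact (hasDerivAt_pp hs).continuousAt

lemma contDiffOn_pp : ContDiffOn ℝ 1 pp (Ioi 0) := by
  rw [show (1 : WithTop ℕ∞) = 0 + 1 by norm_num, contDiffOn_succ_iff_deriv_of_isOpen isOpen_Ioi]
  refine ⟨fun t ht => (hasDerivAt_pp ht).differentiableAt.differentiableWithinAt, by simp, ?_⟩
  rw [contDiffOn_zero]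
  refine ContinuousOn.congr (f := fun t => (-(18 / 25) * mm t * t - mm t ^ 2) / t ^ 2) ?_
    fun _ ht => (hasDerivAt_pp ht).deriv
  refine ContinuousOn.div ?_ (by fun_prop) fun t ht => pow_ne_zero 2 (ne_of_gt ht)
  have := continuous_mm
  fun_prop

lemma contDiffOn_gg : ContDiffOn ℝ 2 gg (Ioi 0) := by
  rw [show (2 : WithTop ℕ∞) = 1 + 1 by norm_num, contDiffOn_succ_iff_deriv_of_isOpen isOpen_Ioi]
  refine ⟨fun t ht => (hasDerivAt_gg ht).differentiableAt.differentiableWithinAt, by simp, ?_⟩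
  exact contDiffOn_pp.neg.congr fun t ht => (hasDerivAt_gg ht).deriv

lemma mm_zero {t : ℝ} (ht : 25 / 9 ≤ t) : mm t = 0 := by
  unfold mm
  rw [max_eq_right]
  linarith

lemma mm_eq {t : ℝ} (ht : t ≤ 25 / 9) : mm t = 1 - 9 / 25 * t := by
  unfold mm
  rw [max_eq_left]
  linarith

lemma gg_nonneg {s : ℝ} (hs : 0 < s) : 0 ≤ gg s := by
  unfold gg
  rcases le_total s (25 / 9) with h | h
  · exact intervalIntegral.integral_nonneg h fun t ht => pp_nonneg (lt_of_lt_of_le hs ht.1)
  · rw [intervalIntegral.integral_symm]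
    have : ∫ t in (25 / 9)..s, pp t = 0 := by
      rw [← intervalIntegral.integral_zero (a := (25 / 9 : ℝ)) (b := s) (μ := volume)]
      refine intervalIntegral.integral_congr fun t ht => ?_
      rw [uIcc_of_le h] at ht
      show mm t ^ 2 / t = 0
      rw [mm_zero ht.1]
      simp
    rw [this]; simp

lemma gg_zero {s : ℝ} (hs : 25 / 9 ≤ s) : gg s = 0 := by
  unfold gg
  rw [intervalIntegral.integral_symm]
  have : ∫ t in (25 / 9)..s, pp t = 0 := by
    rw [← intervalIntegral.integral_zero (a := (25 / 9 : ℝ)) (b := s) (μ := volume)]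
    refine intervalIntegral.integral_congr fun t ht => ?_
    rw [uIcc_of_le hs] at ht
    show mm t ^ 2 / t = 0
    rw [mm_zero ht.1]
    simp
  rw [this]; simp

/-- the test function -/
def HH (ε : ℝ) (w : ℂ) : ℝ := gg (sq 0 (ε ^ 2) w)

lemma sq_pos {ε : ℝ} (hε : 0 < ε) (z w : ℂ) : 0 < sq z (ε ^ 2) w := by
  unfold sq; positivity

lemma contDiff_HH {ε : ℝ} (hε : 0 < ε) : ContDiff ℝ 2 (HH ε) :=
  contDiffOn_gg.comp_contDiff (contDiff_sq 0 (ε ^ 2)) fun w => sq_pos hε 0 w

lemma HH_zero {ε : ℝ} {w : ℂ} (hw : 5 / 3 ≤ ‖w‖) : HH ε w = 0 := by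
  refine gg_zero ?_
  unfold sq
  rw [sub_zero]
  nlinarith [sq_nonneg ε, norm_nonneg w]

lemma hasCompactSupport_HH (ε : ℝ) : HasCompactSupport (HH ε) :=
  HasCompactSupport.intro (isCompact_closedBall (0 : ℂ) (5 / 3)) fun w hw => HH_zero (by
    rw [mem_closedBall_zero_iff, not_le] at hw
    exact hw.le)

lemma lap_HH {ε : ℝ} (hε : 0 < ε) (w : ℂ) : lap (HH ε) w =
    4 * (18 / 25 * mm (sq 0 (ε ^ 2) w) -
      rho ε 0 w * (mm (sq 0 (ε ^ 2) w) ^ 2 + 18 / 25 * mm (sq 0 (ε ^ 2) w) * sq 0 (ε ^ 2) w)) := by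
  have h0 := sq_pos hε 0 w
  have h1 : ∀ᶠ s in 𝓝 (sq 0 (ε ^ 2) w), HasDerivAt gg ((fun s => -pp s) s) s := by
    filter_upwards [Ioi_mem_nhds h0] with s hs using hasDerivAt_gg hs
  have h2 : HasDerivAt (fun s => -pp s) _ (sq 0 (ε ^ 2) w) := (hasDerivAt_pp h0).neg
  have h3 := lap_radial h1 h2
  unfold HH
  rw [h3]
  have h4 : ‖w - 0‖ ^ 2 = sq 0 (ε ^ 2) w - ε ^ 2 := by unfold sq; ring
  have h5 : rho ε 0 w = ε ^ 2 / (sq 0 (ε ^ 2) w) ^ 2 := rfl
  rw [h4, h5]
  unfold pp
  field_simp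
  ring

/-- the weight bounding the error -/
def psi (w : ℂ) : ℝ := max (1 - (9 / 25 * ‖w‖ ^ 2) ^ 2) 0

lemma continuous_psi : Continuous psi := by unfold psi; fun_prop

lemma psi_zero {w : ℂ} (hw : 5 / 3 ≤ ‖w‖) : psi w = 0 := by
  unfold psi
  rw [max_eq_right]
  have : 1 ≤ 9 / 25 * ‖w‖ ^ 2 := by nlinarith
  nlinarith

lemma hasCompactSupport_psi : HasCompactSupport psi :=
  HasCompactSupport.intro (isCompact_closedBall (0 : ℂ) (5 / 3)) fun w hw => psi_zero (by
    rw [mem_closedBall_zero_iff, not_le] at hw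
    exact hw.le)

lemma mm_psi {ε : ℝ} (w : ℂ) : mm (sq 0 (ε ^ 2) w) ^ 2 +
    18 / 25 * mm (sq 0 (ε ^ 2) w) * sq 0 (ε ^ 2) w ≤ psi w := by
  rcases le_total (sq 0 (ε ^ 2) w) (25 / 9) with h | h
  · rw [mm_eq h]
    unfold psi
    refine le_trans ?_ (le_max_left _ _)
    have h1 : ‖w‖ ^ 2 ≤ sq 0 (ε ^ 2) w := by
      unfold sq; rw [sub_zero]; nlinarith [sq_nonneg ε]
    have h2 : 0 ≤ ‖w‖ ^ 2 := by positivity
    nlinarith
  · rw [mm_zero h]
    unfold psi
    refine le_trans ?_ (le_max_right _ _)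
    simp

lemma integrable_of_zero {F : ℂ → ℝ} (hF : Continuous F) {r : ℝ} (h : ∀ w, r ≤ ‖w‖ → F w = 0) :
    Integrable F :=
  hF.integrable_of_hasCompactSupport (HasCompactSupport.intro
    (isCompact_closedBall (0 : ℂ) r) fun w hw => h w (by
      rw [mem_closedBall_zero_iff, not_le] at hw
      exact hw.le))

lemma mm_sq_zero {ε : ℝ} {w : ℂ} (h : 5 / 3 ≤ ‖w‖) : mm (sq 0 (ε ^ 2) w) = 0 := by
  refine mm_zero ?_
  unfold sq
  rw [sub_zero]
  nlinarith [sq_nonneg ε, norm_nonneg w]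

/-- the one dimensional `L¹` estimate -/
theorem sub_mean1 {U : ℂ → ℝ} (hU : ContDiff ℝ 2 U)
    (hl : ∀ w ∈ Metric.ball (0 : ℂ) (17 / 10), 0 ≤ lap U w)
    (hn : ∀ w ∈ Metric.ball (0 : ℂ) (17 / 10), U w ≤ 0) :
    ∫ w in Metric.closedBall (0 : ℂ) (3 / 2), -U w ≤ 25 * kap * -U 0 := by
  have hUc := hU.continuous
  -- the inequality at level ε
  have key : ∀ ε : ℝ, 0 < ε → ε < 1 / 2 →
      ∫ w in Metric.closedBall (0 : ℂ) (3 / 2), -U w ≤
        25 * ∫ w, (-U w * psi w) * rho ε 0 w := by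
    intro ε hε hε2
    have h1 : 0 ≤ ∫ w, HH ε w * lap U w := by
      refine integral_nonneg fun w => ?_
      show 0 ≤ HH ε w * lap U w
      rcases lt_or_ge ‖w‖ (5 / 3) with h | h
      · refine mul_nonneg (gg_nonneg (sq_pos hε 0 w)) (hl w ?_)
        rw [mem_ball_zero_iff]
        linarith
      · rw [HH_zero h, zero_mul]
    rw [ibp (hasCompactSupport_HH ε) (contDiff_HH hε) hU] at h1
    have hmc : Continuous fun w : ℂ => mm (sq 0 (ε ^ 2) w) :=
      continuous_mm.comp (contDiff_sq (k := 1) 0 (ε ^ 2)).continuous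
    have hrc : Continuous (rho ε 0) := continuous_rho_right hε 0
    have i1 : Integrable fun w => -U w * mm (sq 0 (ε ^ 2) w) :=
      integrable_of_zero (hUc.neg.mul hmc) (r := 5 / 3) fun w hw => by
        rw [mm_sq_zero hw, mul_zero]
    have i2 : Integrable fun w => (-U w * psi w) * rho ε 0 w :=
      integrable_of_zero ((hUc.neg.mul continuous_psi).mul hrc) (r := 5 / 3) fun w hw => by
        rw [psi_zero hw, mul_zero, zero_mul]
    have i3 : Integrable fun w => U w * lap (HH ε) w :=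
      (hUc.mul (continuous_lap (contDiff_HH hε))).integrable_of_hasCompactSupport
        (lap_tsupport (hasCompactSupport_HH ε)).mul_left
    have h2 : ∫ w, U w * lap (HH ε) w ≤
        ∫ w, (4 * ((-U w * psi w) * rho ε 0 w) - 72 / 25 * (-U w * mm (sq 0 (ε ^ 2) w))) := by
      refine integral_mono i3 ((i2.const_mul 4).sub (i1.const_mul _)) fun w => ?_
      show U w * lap (HH ε) w ≤
        4 * ((-U w * psi w) * rho ε 0 w) - 72 / 25 * (-U w * mm (sq 0 (ε ^ 2) w))
      rw [lap_HH hε]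
      rcases lt_or_ge ‖w‖ (5 / 3) with h | h
      · have hu : 0 ≤ -U w := by
          have := hn w (by rw [mem_ball_zero_iff]; linarith)
          linarith
        have h3 := mul_le_mul_of_nonneg_left (mul_le_mul_of_nonneg_left (mm_psi (ε := ε) w)
          (rho_nonneg ε 0 w)) hu
        nlinarith
      · rw [mm_sq_zero h, psi_zero h]
        simp
    rw [integral_sub (i2.const_mul 4) (i1.const_mul _), integral_const_mul,
      integral_const_mul] at h2
    -- lower bound of the left side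
    have h5 : ∫ w in Metric.closedBall (0 : ℂ) (3 / 2), -U w * (1 / 10) ≤
        ∫ w, -U w * mm (sq 0 (ε ^ 2) w) := by
      have h6 : ∫ w in Metric.closedBall (0 : ℂ) (3 / 2), -U w * (1 / 10) ≤
          ∫ w in Metric.closedBall (0 : ℂ) (3 / 2), -U w * mm (sq 0 (ε ^ 2) w) := by
        refine setIntegral_mono_on ?_ i1.integrableOn measurableSet_closedBall fun w hw => ?_
        · exact (hUc.neg.mul continuous_const).continuousOn.integrableOn_compact
            (isCompact_closedBall _ _)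
        · rw [mem_closedBall_zero_iff] at hw
          have hu : 0 ≤ -U w := by
            have := hn w (by rw [mem_ball_zero_iff]; linarith)
            linarith
          refine mul_le_mul_of_nonneg_left ?_ hu
          have h7 : sq 0 (ε ^ 2) w ≤ 5 / 2 := by
            unfold sq
            rw [sub_zero]
            nlinarith [norm_nonneg w]
          rw [mm_eq (by linarith)]
          linarith
      refine h6.trans ?_
      refine setIntegral_le_integral i1 (Eventually.of_forall fun w => ?_)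
      show 0 ≤ -U w * mm (sq 0 (ε ^ 2) w)
      rcases lt_or_ge ‖w‖ (5 / 3) with h | h
      · have := hn w (by rw [mem_ball_zero_iff]; linarith)
        exact mul_nonneg (by linarith) (mm_nonneg _)
      · rw [mm_sq_zero h, mul_zero]
    rw [integral_mul_const] at h5
    have hpos : 0 ≤ ∫ w, (-U w * psi w) * rho ε 0 w := by
      refine integral_nonneg fun w => ?_
      show 0 ≤ (-U w * psi w) * rho ε 0 w
      rcases lt_or_ge ‖w‖ (5 / 3) with h | h
      · have := hn w (by rw [mem_ball_zero_iff]; linarith)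
        exact mul_nonneg (mul_nonneg (by linarith) (le_max_right _ _)) (rho_nonneg _ _ _)
      · rw [psi_zero h]; simp
    linarith
  -- the limit
  have hF : Continuous fun w => -U w * psi w := hUc.neg.mul continuous_psi
  have hFs : HasCompactSupport fun w => -U w * psi w := hasCompactSupport_psi.mul_left
  obtain ⟨B, hB⟩ := hF.bounded_above_of_compact_support hFs
  have ht := (tendsto_rho hF (B := B) (fun w => by simpa using hB w) 0).const_mul 25
  have h9 : psi 0 = 1 := by unfold psi; simp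
  have h10 : ∫ w in Metric.closedBall (0 : ℂ) (3 / 2), -U w ≤ 25 * ((-U 0 * psi 0) * kap) := by
    refine ge_of_tendsto ht ?_
    have h11 : Ioo (0 : ℝ) (1 / 2) ∈ 𝓝[>] (0 : ℝ) := Ioo_mem_nhdsGT (by norm_num)
    filter_upwards [h11] with ε hε using key ε hε.1 hε.2
  rw [h9] at h10
  linarith

end Vale.Agent.P272.K.LEX
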